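import Vale.Agent.P263.K.Stmt
import Vale.Agent.P263.TJ.HopfDef

/-!
# P263, block K: Steenrod squares in the mapping cylinder and functional squares

* `exists_FSqD_of_sqNe` : the converse of `sqNe_of_FSqD`.
* `sqNe_iff_hopfOne` : for `F : S^{d+n} → Sⁿ`, `n = d + 1 + i`, the square `Sq^{d+1}` is not zero in
  the mapping cylinder iff Steenrod's functional square is not zero (`TJ.HopfOne`).
* `HopfOne.of_rep`, `hopfOne_iff` : the same for a based map `Sᵈ → Q₀S⁰`.
-/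

open Finset OnePoint

namespace Vale.Agent.P263.K

open Vale.Agent.P263.S Vale.Agent.P263.E Vale.Agent.P263.G2 Vale.Agent.P263.TJ
  Vale.Agent.P263.T0

variable {X Y : Type} [TopologicalSpace X] [TopologicalSpace Y]

/-- The abstract form of the converse. -/
theorem cyl_sq_conv {V W U : CupC} {g : CupC.Hom V U} (r : CupC.Hom V W) (t : CupC.Hom W U)
    (hrt : ∀ x, t.f (r.f x) = g.f x) (hext : ∀ u, ∃ w, t.f w = u) {i : ℕ} {z v : W.C} {b c : V.C}
    (hb : V.d b = 0) (hc : V.cup (i + 1) b b = V.d c) (hz : t.f z = 0)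
    (hv : z + r.f b = W.d v) :
    ∃ D : CupC.FSqD g i, D.b = b ∧ D.e = t.f v ∧ D.c = c ∧
      ∀ y, V.d y = 0 → U.Coh D.val (g.f y) →
        ∃ w, t.f w = 0 ∧ W.cup (i + 1) z z = W.d w := by
  have hde : U.d (t.f v) = g.f b := by
    rw [← t.f_d, ← hv, map_add, hz, zero_add, hrt]
  have hzv : z = r.f b + W.d v := by
    rw [← hv, add_comm z, ← add_assoc, W.two, zero_add]
  have hB : W.d (r.f b) = 0 := by rw [← r.f_d, hb, map_zero]
  have hsq : W.cup (i + 1) z z =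
      W.d (r.f c + W.cup (i + 2) (r.f b) (W.d v) + W.q i v) := by
    have h1 := W.cup_comm_coh (i + 1) hB (W.d_d v)
    have h2 : W.cup (i + 1) (r.f b) (r.f b) = W.d (r.f c) := by
      rw [← r.f_cup, hc, r.f_d]
    rw [hzv, map_add W.d, map_add W.d, ← h1, ← h2, W.d_q]
    simp only [map_add, AddMonoidHom.add_apply]
    abel
  refine ⟨⟨b, t.f v, c, hb, hde, hc⟩, rfl, rfl, rfl, ?_⟩
  intro y hy hcoh
  have h3 : t.f (r.f c + W.cup (i + 2) (r.f b) (W.d v) + W.q i v) =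
      g.f c + U.cup (i + 2) (g.f b) (g.f b) + U.q i (t.f v) := by
    rw [map_add, map_add, t.f_cup, t.f_q, t.f_d, hrt, hrt, hde]
  have h4 : U.Coh (g.f c + U.cup (i + 2) (g.f b) (g.f b) + U.q i (t.f v)) (g.f y) := by
    have h5 : U.Coh (g.f c + U.cup (i + 2) (g.f b) (g.f b) + U.q i (t.f v))
        (U.q i (t.f v) + g.f c) := by
      refine ⟨U.q (i + 1) (t.f v), ?_⟩
      rw [U.d_q, hde]
      have h7 := U.two (U.q i (t.f v))
      have h8 := U.two (g.f c)
      calc _ = (U.q i (t.f v) + U.q i (t.f v)) + (g.f c + g.f c) +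
            U.cup (i + 1 + 1) (g.f b) (g.f b) := by abel
        _ = _ := by rw [h7, h8, zero_add, zero_add]
    exact h5.trans hcoh
  obtain ⟨u, hu⟩ := h4
  obtain ⟨w, rfl⟩ := hext u
  refine ⟨r.f c + W.cup (i + 2) (r.f b) (W.d v) + W.q i v + r.f y + W.d w, ?_, ?_⟩
  · rw [map_add t.f, map_add t.f, h3, hrt, hu, t.f_d, U.two]
  · rw [map_add W.d, map_add W.d, ← hsq, W.d_d, add_zero, ← r.f_d, hy, map_zero, add_zero]

theorem comp_isDeg_coh {X : SS} {n : ℕ} {u v : Cc X} (hu : Cc.IsDeg n u)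
    (h : (Cc.cupC X).Coh u v) : (Cc.cupC X).Coh u (Cc.comp n v) := by
  obtain ⟨w, hw⟩ := h
  have h1 : Cc.comp n (u + v) = Cc.comp n (Cc.d w) := congrArg (Cc.comp n) hw
  rw [Cc.comp_add, Cc.comp_eq hu] at h1
  cases n with
  | zero => exact ⟨0, (h1.trans (Cc.comp_d_zero w)).trans (map_zero _).symm⟩
  | succ n => exact ⟨Cc.comp n w, h1.trans (Cc.comp_d n w)⟩

theorem d_comp {X : SS} {n : ℕ} {u : Cc X} (hu : Cc.d u = 0) : Cc.d (Cc.comp n u) = 0 := by
  rw [← Cc.comp_d, hu]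
  funext p x
  show (if p = n + 1 then (0 : ZMod 2) else 0) = 0
  split_ifs <;> rfl

/-- **The converse of the bridge.** If `Sqᵏ` is not zero on `H^{k+i}(Cyl f, X)` and is zero on
`H^{k+i}(Y)`, then there is a functional square which is not in `f^* H(Y)`. -/
theorem exists_FSqD_of_sqNe (f : C(X, Y)) {k i m l : ℕ} (hm : m + 1 = k + i) (hl : l + 1 = k + (k + i))
    (hY : ∀ b : Cc (sing Y), Cc.IsDeg (k + i) b → Cc.d b = 0 →
      ∃ c : Cc (sing Y), Cc.cup (i + 1) b b = Cc.d c)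
    (h : SqNe f k i) :
    ∃ D : CupC.FSqD (Cc.pullHom (singMap f)) i, D.Homog (Cc.gr _) (Cc.gr _) m l ∧
      ∀ y : Cc (sing Y), Cc.d y = 0 → ¬ (Cc.cupC (sing X)).Coh D.val (Cc.pull (singMap f) y) := by
  obtain ⟨z, hz, hdz, hz0, hne⟩ := h
  obtain ⟨v, hv⟩ := coh_retr f hdz
  -- take the homogeneous part
  have hbdeg : Cc.IsDeg (k + i) (Cc.pull (singMap (Cyl.base f)) z) := hz.pull _
  have hv' : z + Cc.pull (singMap (Cyl.retr f)) (Cc.pull (singMap (Cyl.base f)) z) =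
      Cc.d (Cc.comp m v) := by
    have h1 : Cc.comp (m + 1) (z + Cc.pull (singMap (Cyl.retr f))
        (Cc.pull (singMap (Cyl.base f)) z)) = Cc.d (Cc.comp m v) :=
      (congrArg (Cc.comp (m + 1)) hv).trans (Cc.comp_d m v)
    rw [hm, Cc.comp_eq (hz.add (hbdeg.pull _))] at h1
    exact h1
  have hbd : Cc.d (Cc.pull (singMap (Cyl.base f)) z) = 0 := by rw [← pull_d, hdz]; rfl
  obtain ⟨c₀, hc₀⟩ := hY _ hbdeg hbd
  have hcupdeg : Cc.IsDeg (l + 1) (Cc.cup (i + 1) (Cc.pull (singMap (Cyl.base f)) z)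
      (Cc.pull (singMap (Cyl.base f)) z)) := hbdeg.cup hbdeg (by omega)
  have hc : Cc.cup (i + 1) (Cc.pull (singMap (Cyl.base f)) z)
      (Cc.pull (singMap (Cyl.base f)) z) = Cc.d (Cc.comp l c₀) := by
    rw [← Cc.comp_d, ← hc₀, Cc.comp_eq hcupdeg]
  have hext : ∀ u : Cc (sing X), ∃ w : Cc (sing (Cyl f)),
      Cc.pull (singMap (Cyl.top f)) w = u := by
    intro u
    classical
    have hj := singMap_inj (Cyl.top_injective f)
    refine ⟨fun p σ => if h : ∃ τ : (sing X).obj p, (singMap (Cyl.top f)).app τ = σ then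
      u p h.choose else 0, ?_⟩
    funext p τ
    have h : ∃ τ' : (sing X).obj p, (singMap (Cyl.top f)).app τ' = (singMap (Cyl.top f)).app τ :=
      ⟨τ, rfl⟩
    show (if h : ∃ τ' : (sing X).obj p, (singMap (Cyl.top f)).app τ' =
      (singMap (Cyl.top f)).app τ then u p h.choose else 0) = u p τ
    rw [dif_pos h]
    exact congrArg (u p) (hj p h.choose_spec)
  obtain ⟨D, hDb, hDe, hDc, hD⟩ := cyl_sq_conv (g := Cc.pullHom (singMap f))
    (Cc.pullHom (singMap (Cyl.retr f))) (Cc.pullHom (singMap (Cyl.top f))) (fun _ => rfl)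
    hext (i := i) (z := z) (v := Cc.comp m v) hbd hc hz0 hv'
  refine ⟨D, ⟨?_, ?_, ?_, ?_⟩, ?_⟩
  · rw [hDb, hm]; exact hbdeg
  · rw [hDe]; exact (Cc.isDeg_comp m v).pull _
  · rw [hDc]; exact Cc.isDeg_comp l c₀
  · omega
  · intro y hy hcoh
    exact hne (hD y hy hcoh)

/-- **Hopf invariant one**: the Steenrod square `Sq^{d+1}` on the mapping cylinder of
`F : S^{d+n} → Sⁿ`, `n = d + 1 + i`, is not zero iff Steenrod's functional square is not zero. -/
theorem sqNe_iff_hopfOne {d m n i : ℕ} (hd : 0 < d) (F : C(Sph m, Sph (n + 1)))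
    (hm : m = d + (n + 1)) (hn : n = d + i) : SqNe F (d + 1) i ↔ TJ.HopfOne F := by
  have hi : 2 * n + 1 = m + i := by omega
  have hm' : n + 1 < m := by omega
  have hu := unamb (F := F) (i := i) hi hm'
  rw [hopfOne_iff F hi]
  constructor
  · intro h
    obtain ⟨D, hD, hne⟩ := exists_FSqD_of_sqNe F (k := d + 1) (i := i) (m := n) (l := m)
      (by omega) (by omega) (fun b hb hdb => by
        have hcupdeg : Cc.IsDeg (m + 1) (Cc.cup (i + 1) b b) := hb.cup hb (by omega)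
        have hd2 : Cc.d (Cc.cup (i + 1) b b) = 0 := by
          have h1 := (Cc.cupC (sing (Sph (n + 1)))).cup_comm_coh i (x := b) (y := b) hdb hdb
          have h2 := (Cc.cupC (sing (Sph (n + 1)))).two ((Cc.cupC (sing (Sph (n + 1)))).cup i b b)
          exact h1.symm.trans h2
        exact exists_of_coh (SphCc.van (by omega) (by omega) _ hcupdeg hd2)) h
    have hv0 : ¬ (Cc.cupC (sing (Sph m))).Coh D.val 0 := by
      intro h0
      exact hne 0 (d_zero) h0
    refine ⟨D, hD, fun hb => hv0 ?_, hv0⟩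
    exact CupC.FSqD.val_null hu hD hb
  · rintro ⟨D, hD, hb, hv⟩
    refine sqNe_of_FSqD F (m := n) D ?_ hD.e_mem (by omega) ?_
    · have h1 : Cc.IsDeg (n + 1) (D.b : Cc (sing (Sph (n + 1)))) := hD.b_mem
      exact fun p hp => h1 p (by omega)
    · intro y hy hcoh
      have hval : Cc.IsDeg m (D.val : Cc (sing (Sph m))) :=
        CupC.FSqD.val_mem hD fun x hx => Cc.IsDeg.pull hx _
      have h1 := comp_isDeg_coh hval hcoh
      rw [Cc.comp_pull] at h1
      exact hv (h1.trans (hu.zero _ (Cc.isDeg_comp m y) (d_comp hy)))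

/-- Hopf invariant one of a based map `Sᵈ → Q₀S⁰` from a representative. -/
theorem HopfOne.of_rep {d n i : ℕ} (hd : 0 < d) {g : BMap d} {A : C(Sph d, Om (n + 1))}
    (h : Rep g (n + 1) A) (hn : n = d + i) (hF : TJ.HopfOne (adjS A h.base)) : HopfOne g :=
  ⟨n + 1, i, A, h, by omega, (sqNe_iff_hopfOne hd (adjS A h.base) rfl hn).2 hF⟩

theorem HopfOne.exists_rep {d : ℕ} (hd : 0 < d) {g : BMap d} (h : HopfOne g) :
    ∃ (n i : ℕ) (A : C(Sph d, Om (n + 1))) (h : Rep g (n + 1) A), n = d + i ∧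
      TJ.HopfOne (adjS A h.base) := by
  obtain ⟨n', i, A, hA, hn, hS⟩ := h
  obtain ⟨n, rfl⟩ : ∃ n, n' = n + 1 := ⟨d + i, by omega⟩
  exact ⟨n, i, A, hA, by omega, (sqNe_iff_hopfOne hd (adjS A hA.base) rfl (by omega)).1 hS⟩

end Vale.Agent.P263.K
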