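import Vale.Agent.P263.K.RelIso
import Vale.Agent.P263.TJ.SqMu

/-!
# P263: the half-smash isomorphism

For a compact Hausdorff space `P` let `T = OnePoint (ℝᴷ × P)`. The map
`muT K P : (sing P × (Δ¹)ᴷ, ends) → (sing T, ∞)` is an isomorphism in relative mod 2 cohomology.
-/

open OnePoint Topology Filter

namespace Vale.Agent.P263.K

open Vale.Agent.P263.S Vale.Agent.P263.E Vale.Agent.P263.TJ Vale.Agent.P263.G2
  Vale.Agent.P263.T0

/-! ### the contraction of the complement of `0 × P` -/

section Contr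

variable {K : ℕ} {P : Type} [TopologicalSpace P]

/-- the distance to infinity -/
noncomputable def rT (z : OnePoint ((Fin K → ℝ) × P)) : ℝ := z.elim 0 fun x => (1 + ‖x.1‖)⁻¹

@[simp] theorem rT_infty : rT (∞ : OnePoint ((Fin K → ℝ) × P)) = 0 := rfl

@[simp] theorem rT_coe (x : (Fin K → ℝ) × P) : rT (x : OnePoint ((Fin K → ℝ) × P)) =
    (1 + ‖x.1‖)⁻¹ := rfl

theorem continuous_rT [CompactSpace P] :
    Continuous (rT : OnePoint ((Fin K → ℝ) × P) → ℝ) := by
  rw [continuous_iff_continuousAt]
  intro z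
  induction z using OnePoint.rec with
  | infty =>
    rw [OnePoint.continuousAt_infty']
    show Tendsto (fun x : (Fin K → ℝ) × P => (1 + ‖x.1‖)⁻¹) (coclosedCompact _) (𝓝 0)
    refine tendsto_inv_atTop_zero.comp (tendsto_atTop_add_const_left _ _ ?_)
    refine tendsto_atTop.2 fun R => ?_
    rw [Filter.eventually_iff, Filter.hasBasis_coclosedCompact.mem_iff]
    refine ⟨Metric.closedBall 0 R ×ˢ Set.univ, ⟨Metric.isClosed_closedBall.prod isClosed_univ,
      (isCompact_closedBall _ _).prod isCompact_univ⟩, fun x hx => ?_⟩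
    have h1 : ¬ ‖x.1‖ ≤ R := fun h => hx ⟨mem_closedBall_zero_iff.2 h, trivial⟩
    exact (not_le.1 h1).le
  | coe x =>
    rw [OnePoint.continuousAt_coe]
    show ContinuousAt (fun x : (Fin K → ℝ) × P => (1 + ‖x.1‖)⁻¹) x
    refine ContinuousAt.inv₀ (by fun_prop) ?_
    have := norm_nonneg x.1
    linarith

theorem tendsto_infty_of_rT {α : Type*} {l : Filter α} {F : α → OnePoint ((Fin K → ℝ) × P)}
    (h : Tendsto (fun a => rT (F a)) l (𝓝 0)) : Tendsto F l (𝓝 ∞) := by
  rw [OnePoint.hasBasis_nhds_infty.tendsto_right_iff]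
  rintro s ⟨-, hs⟩
  obtain ⟨R, hR⟩ := (hs.image continuous_fst).isBounded.exists_norm_le
  have hR' : (0 : ℝ) < (1 + max R 0)⁻¹ := by
    have := le_max_right R 0
    positivity
  filter_upwards [h.eventually (gt_mem_nhds hR')] with a ha
  induction hz : F a using OnePoint.rec with
  | infty => exact Or.inr rfl
  | coe x =>
    refine Or.inl ⟨x, fun hx => ?_, rfl⟩
    have h1 : ‖x.1‖ ≤ R := hR _ ⟨x, hx, rfl⟩
    rw [hz, rT_coe] at ha
    have h2 : 1 + ‖x.1‖ ≤ 1 + max R 0 := by
      have := le_max_left R 0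
      linarith
    have h3 : (1 + max R 0)⁻¹ ≤ (1 + ‖x.1‖)⁻¹ := by
      have := norm_nonneg x.1
      gcongr
    exact absurd ha (not_lt.2 h3)

/-- the contraction -/
noncomputable def conT (z : OnePoint ((Fin K → ℝ) × P)) (s : ℝ) : OnePoint ((Fin K → ℝ) × P) :=
  z.elim ∞ fun x => if s = 1 then ∞ else (((1 - s)⁻¹ • x.1, x.2) : (Fin K → ℝ) × P)

theorem conT_infty (s : ℝ) : conT (∞ : OnePoint ((Fin K → ℝ) × P)) s = ∞ := rfl

theorem conT_one (z : OnePoint ((Fin K → ℝ) × P)) : conT z 1 = ∞ := by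
  induction z using OnePoint.rec with
  | infty => rfl
  | coe x => exact if_pos rfl

theorem conT_coe (x : (Fin K → ℝ) × P) {s : ℝ} (hs : s ≠ 1) :
    conT (x : OnePoint ((Fin K → ℝ) × P)) s = (((1 - s)⁻¹ • x.1, x.2) : (Fin K → ℝ) × P) :=
  if_neg hs

theorem conT_zero (z : OnePoint ((Fin K → ℝ) × P)) : conT z 0 = z := by
  induction z using OnePoint.rec with
  | infty => rfl
  | coe x =>
    rw [conT_coe x zero_ne_one]
    simp

theorem conT_misT {z : OnePoint ((Fin K → ℝ) × P)} (hz : z ∈ misT K P) (s : ℝ) :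
    conT z s ∈ misT K P := by
  induction z using OnePoint.rec with
  | infty => exact fun p => OnePoint.infty_ne_coe _
  | coe x =>
    by_cases hs : s = 1
    · rw [hs, conT_one]
      exact fun p => OnePoint.infty_ne_coe _
    · rw [conT_coe x hs]
      have h1 : x.1 ≠ 0 := coeT_misT.1 hz
      refine coeT_misT.2 ?_
      show (1 - s)⁻¹ • x.1 ≠ 0
      exact smul_ne_zero (inv_ne_zero (sub_ne_zero.2 (Ne.symm hs))) h1

theorem rT_lt_one {z : OnePoint ((Fin K → ℝ) × P)} (hz : z ∈ misT K P) : rT z < 1 := by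
  induction z using OnePoint.rec with
  | infty => rw [rT_infty]; exact one_pos
  | coe x =>
    rw [rT_coe]
    have h1 : x.1 ≠ 0 := coeT_misT.1 hz
    have h2 := norm_pos_iff.2 h1
    exact inv_lt_one_of_one_lt₀ (by linarith)

theorem rT_nonneg (z : OnePoint ((Fin K → ℝ) × P)) : 0 ≤ rT z := by
  induction z using OnePoint.rec with
  | infty => exact le_rfl
  | coe x =>
    rw [rT_coe]
    have := norm_nonneg x.1
    positivity

theorem rT_conT {z : OnePoint ((Fin K → ℝ) × P)} (hz : z ∈ misT K P) {s : ℝ} (hs : s ≤ 1) :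
    rT (conT z s) = rT z * (1 - s) / (1 - s * rT z) := by
  induction z using OnePoint.rec with
  | infty => rw [conT_infty, rT_infty]; simp
  | coe x =>
    by_cases h : s = 1
    · rw [h, conT_one, rT_infty]; simp
    · have h3 : 0 < 1 - s := sub_pos.2 (lt_of_le_of_ne hs h)
      have h1 : x.1 ≠ 0 := coeT_misT.1 hz
      have h2 := norm_pos_iff.2 h1
      rw [conT_coe x h, rT_coe, rT_coe, norm_smul, norm_inv, Real.norm_of_nonneg h3.le]
      have h4 : (1 : ℝ) - s * (1 + ‖x.1‖)⁻¹ = (1 - s + ‖x.1‖) / (1 + ‖x.1‖) := by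
        field_simp
        ring
      have h5 : (1 : ℝ) + (1 - s)⁻¹ * ‖x.1‖ = (1 - s + ‖x.1‖) / (1 - s) := by
        field_simp
      rw [h4, h5]
      have h6 : (1 : ℝ) + ‖x.1‖ ≠ 0 := by linarith
      have h7 : (1 : ℝ) - s + ‖x.1‖ ≠ 0 := by linarith
      field_simp

variable [CompactSpace P] [T2Space P]

theorem continuous_conT : Continuous fun z : misT K P × unitInterval =>
    conT (z.1 : OnePoint ((Fin K → ℝ) × P)) (z.2 : ℝ) := by
  rw [continuous_iff_continuousAt]
  rintro ⟨⟨z, hz⟩, s⟩
  have hc1 : Continuous fun w : misT K P × unitInterval =>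
      ((w.1 : OnePoint ((Fin K → ℝ) × P))) := continuous_subtype_val.comp continuous_fst
  have hc2 : Continuous fun w : misT K P × unitInterval => (w.2 : ℝ) :=
    continuous_subtype_val.comp continuous_snd
  by_cases h : conT z s = ∞
  · have h1 : ContinuousAt (fun w : misT K P × unitInterval =>
        rT (w.1 : OnePoint ((Fin K → ℝ) × P)) * (1 - (w.2 : ℝ)) /
          (1 - (w.2 : ℝ) * rT (w.1 : OnePoint ((Fin K → ℝ) × P)))) (⟨z, hz⟩, s) := by
      refine ContinuousAt.div ?_ ?_ ?_
      · exact (((continuous_rT.comp hc1).mul (continuous_const.sub hc2))).continuousAt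
      · exact (continuous_const.sub (hc2.mul (continuous_rT.comp hc1))).continuousAt
      · have h2 := rT_lt_one hz
        have h3 := rT_nonneg z
        have h4 := s.2.1
        have h5 := s.2.2
        have : (s : ℝ) * rT z < 1 := by nlinarith
        show (1 : ℝ) - s * rT z ≠ 0
        linarith
    have h6 : rT z * (1 - (s : ℝ)) / (1 - (s : ℝ) * rT z) = 0 := by
      rw [← rT_conT hz s.2.2, h, rT_infty]
    rw [ContinuousAt, h]
    refine tendsto_infty_of_rT ?_
    rw [ContinuousAt, h6] at h1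
    exact h1.congr fun w => (rT_conT w.1.2 w.2.2.2).symm
  · have hs : (s : ℝ) ≠ 1 := fun h1 => h (by rw [h1, conT_one])
    have hz0 : z ≠ ∞ := fun h1 => h (by rw [h1, conT_infty])
    obtain ⟨x, rfl⟩ := OnePoint.ne_infty_iff_exists.1 hz0
    have hp : ContinuousAt (fun w : OnePoint ((Fin K → ℝ) × P) => w.elim x id)
        (x : OnePoint ((Fin K → ℝ) × P)) := by
      rw [OnePoint.continuousAt_coe]
      exact continuousAt_id
    have h1 : ContinuousAt ((fun w : OnePoint ((Fin K → ℝ) × P) => w.elim x id) ∘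
        fun w : misT K P × unitInterval => (w.1 : OnePoint ((Fin K → ℝ) × P))) (⟨x, hz⟩, s) :=
      ContinuousAt.comp hp hc1.continuousAt
    have h1a : ContinuousAt (fun w : misT K P × unitInterval => (1 - (w.2 : ℝ))⁻¹)
        (⟨x, hz⟩, s) :=
      ContinuousAt.inv₀ (continuous_const.sub hc2).continuousAt (sub_ne_zero.2 (Ne.symm hs))
    have h2 : ContinuousAt (fun w : misT K P × unitInterval =>
        ((((1 - (w.2 : ℝ))⁻¹ • ((w.1 : OnePoint ((Fin K → ℝ) × P)).elim x id).1,
          ((w.1 : OnePoint ((Fin K → ℝ) × P)).elim x id).2) : (Fin K → ℝ) × P) :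
          OnePoint ((Fin K → ℝ) × P))) (⟨x, hz⟩, s) := by
      refine OnePoint.continuous_coe.continuousAt.comp ?_
      exact ContinuousAt.prodMk (h1a.smul (continuous_fst.continuousAt.comp h1))
        (continuous_snd.continuousAt.comp h1)
    refine h2.congr ?_
    have e1 : ∀ᶠ w : misT K P × unitInterval in 𝓝 (⟨x, hz⟩, s),
        ((w.1 : OnePoint ((Fin K → ℝ) × P))) ≠ ∞ :=
      hc1.continuousAt.eventually_ne (OnePoint.coe_ne_infty x)
    have e2 : ∀ᶠ w : misT K P × unitInterval in 𝓝 (⟨x, hz⟩, s), (w.2 : ℝ) ≠ 1 :=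
      hc2.continuousAt.eventually_ne hs
    filter_upwards [e1, e2] with w h3 h4
    obtain ⟨y, hy⟩ := OnePoint.ne_infty_iff_exists.1 h3
    rw [← hy, conT_coe y h4]
    rfl

end Contr

/-! ### the isomorphism -/

variable (K : ℕ) (P : Type) [TopologicalSpace P] [CompactSpace P] [T2Space P]

/-- the inclusion of the complement of `0 × P` -/
noncomputable def jT : C(misT K P, OnePoint ((Fin K → ℝ) × P)) :=
  ⟨Subtype.val, continuous_subtype_val⟩

/-- the contraction of the complement of `0 × P` -/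
noncomputable def conC : C(misT K P × unitInterval, OnePoint ((Fin K → ℝ) × P)) :=
  ⟨_, continuous_conT⟩

theorem bsT_misT {p : ℕ} {σ : (sing (OnePoint ((Fin K → ℝ) × P))).obj p}
    (h : (bsT K P).mem σ) : (inU (misT K P)).mem σ := fun t => by
  show toC σ t ∈ _
  rw [h t]
  exact fun p => OnePoint.infty_ne_coe _

/-- the complement of `0 × P` is contractible to infinity -/
theorem relIso_bsT : RelIso (SS.Map.id (sing (OnePoint ((Fin K → ℝ) × P)))) (bsT K P)
    (inU (misT K P)) := by
  refine RelIso.of_sub (fun σ h => bsT_misT K P h) fun u hu hd => ?_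
  have hj : Topology.IsEmbedding (jT K P) := Topology.IsEmbedding.subtypeVal
  have hr : Set.range (jT K P) = misT K P := Subtype.range_coe
  refine ⟨extJ hj (htp (singHtp (conC K P)) u), Vn_extJ hj ?_, ?_⟩
  · refine vn_htp (A := (bsT K P).comap (singMap (jT K P))) (B := bsT K P) ?_ hu
    intro p χ σ hσ t
    show conT (jT K P (toC σ t)) _ = ∞
    rw [show jT K P (toC σ t) = ∞ from hσ t, conT_infty]
  · intro p σ hσ
    obtain ⟨τ, rfl⟩ := exists_of_inU_range hj (by rw [hr]; exact hσ)
    have h1 : Cc.d (extJ hj (htp (singHtp (conC K P)) u)) p ((singMap (jT K P)).app τ) =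
        Cc.d (htp (singHtp (conC K P)) u) p τ := by
      have h := congrFun (congrFun (pull_d (singMap (jT K P))
        (extJ hj (htp (singHtp (conC K P)) u))) p) τ
      rw [pull_extJ] at h
      exact h
    rw [h1]
    have h2 := congrFun (congrFun (htp_d (singHtp (conC K P)) u) p) τ
    have h3 : htp (singHtp (conC K P)) (Cc.d u) p τ = 0 := by
      refine vn_htp (K := singHtp (conC K P)) (A := ⟨fun _ => True, fun _ _ _ => trivial⟩)
        (B := inU (misT K P)) ?_ hd p τ trivial
      intro p χ σ _ t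
      exact conT_misT (toC σ t).2 _
    have h4 : Cc.pull (singHtp (conC K P)).e1 u = 0 := by
      funext p σ
      refine hu p _ fun t => ?_
      show conT (jT K P (toC σ t)) ((chiI (c1 p) t : unitInterval) : ℝ) = ∞
      rw [chiI_c1]
      exact conT_one _
    have h5 : (singHtp (conC K P)).e0 = singMap (jT K P) :=
      singHtp_e0 _ _ fun x => conT_zero _
    rw [h3, h4, h5] at h2
    have h6 : ∀ a b : ZMod 2, 0 = a + 0 + b → a = b := by decide
    exact h6 _ _ h2

/-- excision -/
theorem relIso_coeT : RelIso (singMap (coeT K P))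
    ((inU (misT K P)).comap (singMap (coeT K P))) (inU (misT K P)) := by
  have hj : Topology.IsOpenEmbedding (coeT K P) := OnePoint.isOpenEmbedding_coe
  refine RelIso.excision (singMap_inj OnePoint.coe_injective) fun u hu h1 h2 => ?_
  obtain ⟨v, h4, h5⟩ := cover_small
    (U := fun i : Bool => if i then Set.range (coeT K P) else misT K P)
    (fun i => by
      cases i
      · exact isOpen_misT K P
      · exact hj.isOpen_range)
    (fun y => by
      induction y using OnePoint.rec with
      | infty => exact ⟨false, fun p => OnePoint.infty_ne_coe _⟩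
      | coe z => exact ⟨true, ⟨z, rfl⟩⟩)
    (u := u) hu
    (fun i => by
      cases i
      · exact h1
      · exact (Vn_range_iff hj.isEmbedding).2 h2)
  exact ⟨v, h4, h5 false, (Vn_range_iff hj.isEmbedding).1 (h5 true)⟩

/-- the half spaces -/
def hfE (i : Fin K × Bool) : Set ((Fin K → ℝ) × P) :=
  if i.2 then {z | 0 < z.1 i.1} else {z | z.1 i.1 < 0}

/-- the simplices with a coordinate of constant sign -/
noncomputable def bxE : Sb (sing ((Fin K → ℝ) × P)) where
  mem σ := ∃ i, (inU (hfE K P i)).mem σ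
  map_mem f _ h := by
    obtain ⟨i, h⟩ := h
    exact ⟨i, (inU (hfE K P i)).map_mem f h⟩

theorem relIso_bxE : RelIso (SS.Map.id (sing ((Fin K → ℝ) × P))) (bxE K P)
    ((inU (misT K P)).comap (singMap (coeT K P))) := by
  have hsub : ∀ i, hfE K P i ⊆ nzP K P := by
    rintro ⟨i, b⟩ z hz h0
    cases b
    · have h1 : z.1 i < 0 := hz
      rw [h0] at h1
      exact lt_irrefl _ h1
    · have h1 : 0 < z.1 i := hz
      rw [h0] at h1
      exact lt_irrefl _ h1
  refine RelIso.of_sub ?_ fun u hu hd => ?_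
  · rintro p σ ⟨i, h⟩
    exact comap_misT.2 fun t => hsub i (h t)
  · obtain ⟨w, h1, h2⟩ := vanish_more (S := nzP K P) (U := hfE K P) (c := u) (fun i => by
        have hc : Continuous fun z : (Fin K → ℝ) × P => z.1 i.1 :=
          (continuous_apply i.1).comp continuous_fst
        obtain ⟨i, b⟩ := i
        cases b
        · exact isOpen_lt hc continuous_const
        · exact isOpen_lt continuous_const hc)
      (fun z hz => by
        have h : ∃ k, z.1 k ≠ 0 := by
          by_contra hcon
          push Not at hcon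
          exact hz (funext hcon)
        obtain ⟨k, hk⟩ := h
        rcases lt_or_gt_of_ne hk with h | h
        · exact Set.mem_iUnion.2 ⟨(k, false), h⟩
        · exact Set.mem_iUnion.2 ⟨(k, true), h⟩)
      (fun p σ hσ => hd p σ (comap_misT.2 hσ)) fun i p σ h => hu p σ ⟨i, h⟩
    refine ⟨w, ?_, ?_⟩
    · rintro p σ ⟨i, h⟩
      exact h1 i p σ h
    · intro p σ hσ
      have h3 : u p σ + Cc.d w p σ = 0 := h2 p σ (comap_misT.1 hσ)
      have h4 : ∀ a b : ZMod 2, a + b = 0 → b = a := by decide
      exact h4 _ _ h3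

/-- `s ↦ 2 s - 1` -/
noncomputable def dblC : C(unitInterval, ℝ) := ⟨fun s => 2 * (s : ℝ) - 1, by fun_prop⟩

/-- `sing P × (sing ℝ)ᴷ → sing (ℝᴷ × P)` -/
noncomputable def packR : SS.Map ((sing P).prod (RN K)) (sing ((Fin K → ℝ) × P)) where
  app {p} z := ofC ((ContinuousMap.pi (show Fin K → C(Dl p, ℝ) from z.2)).prodMk (toC z.1))
  nat _ _ := rfl

/-- the inverse -/
noncomputable def unpackR : SS.Map (sing ((Fin K → ℝ) × P)) ((sing P).prod (RN K)) where
  app {p} σ := (ofC (ContinuousMap.snd.comp (toC σ)),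
    (fun i => (⟨fun t => (toC σ t).1 i, (continuous_apply i).comp
      (continuous_fst.comp (toC σ).continuous)⟩ : C(Dl p, ℝ)) : Fin K → C(Dl p, ℝ)))
  nat _ _ := rfl

theorem linP_eq : linP K P = (packR K P).comp (kX dblC (sing P) K) := rfl

theorem relIso_packR : RelIso (packR K P) ((BN K).comap (SS.snd (sing P) (RN K)))
    (bxE K P) := by
  refine RelIso.of_iso (unpackR K P) rfl rfl fun {p} z => ?_
  constructor
  · rintro ⟨i, h | h⟩
    · exact ⟨(i, false), h⟩
    · exact ⟨(i, true), h⟩
  · rintro ⟨⟨i, b⟩, h⟩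
    cases b
    · exact ⟨i, Or.inl h⟩
    · exact ⟨i, Or.inr h⟩

theorem relIso_linP : RelIso (linP K P) (bdX (sing P) K) (bxE K P) := by
  rw [linP_eq]
  refine (relIso_packR K P).comp (relIso_kX dblC ?_ ?_ (sing P) K)
  · show 2 * ((0 : unitInterval) : ℝ) - 1 < 0
    simp
  · show 2 * ((1 : unitInterval) : ℝ) - 1 = 1
    simp
    norm_num

/-- **The half-smash isomorphism.** -/
theorem relIso_muT : RelIso (muT K P) (bdX (sing P) K) (bsT K P) := by
  refine (relIso_bsT K P).of_comp ?_ fun z hz t => muT_infty K P hz t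
  show RelIso (muT K P) _ _
  rw [← muHt_e0]
  refine RelIso.of_htp (B := inU (misT K P)) ?_ fun χ z hz => muHt_base K P χ hz
  rw [muHt_e1]
  exact (relIso_coeT K P).comp ((relIso_bxE K P).comp (relIso_linP K P))

end Vale.Agent.P263.K
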