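import Vale.Agent.P263.TJ.CubeSph
import Vale.Agent.P263.TJ.SphCc
import Vale.Agent.P263.K.SuspB

/-!
# P263, block K: the cross product with the generator of a sphere

`cross_ne` : if `u` is a cocycle of `X` which is not a coboundary and `v` is a generator of
`H^r(S^r)`, then `u × v` is not a coboundary on `X × S^r`.
-/

open Finset OnePoint

namespace Vale.Agent.P263.K

open Vale.Agent.P263.S Vale.Agent.P263.E Vale.Agent.P263.G2 Vale.Agent.P263.TJ
  Vale.Agent.P263.T0

variable {X : Type} [TopologicalSpace X] {r : ℕ}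

/-- the product of the simplices of `X` with the cube, in `X × S^r` -/
noncomputable def prCx (X : Type) [TopologicalSpace X] (r : ℕ) :
    SS.Map ((sing X).prod (SN r)) (sing (X × Sph r)) :=
  ⟨fun z => ofC ((toC z.1).prodMk (cxC z.2)), fun f z => by
    apply ContinuousMap.ext
    intro t
    exact Prod.ext rfl (congrArg (fun g : C(Dl _, Sph r) => g t) (cxC_comp f z.2))⟩

/-- the first projection -/
def fstC (X Y : Type) [TopologicalSpace X] [TopologicalSpace Y] : C(X × Y, X) :=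
  ⟨Prod.fst, continuous_fst⟩

/-- the second projection -/
def sndC (X Y : Type) [TopologicalSpace X] [TopologicalSpace Y] : C(X × Y, Y) :=
  ⟨Prod.snd, continuous_snd⟩

/-- the inclusion `x ↦ (x, y)` -/
def inl (X : Type) {Y : Type} [TopologicalSpace X] [TopologicalSpace Y] (y : Y) : C(X, X × Y) :=
  ⟨fun x => (x, y), continuous_id.prodMk continuous_const⟩

/-- the inclusion `y ↦ (x, y)` -/
def inr {X : Type} (Y : Type) [TopologicalSpace X] [TopologicalSpace Y] (x : X) : C(Y, X × Y) :=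
  ⟨fun y => (x, y), continuous_const.prodMk continuous_id⟩

theorem pull_const_of_Vn {v : Cc (sing (Sph r))} (hv : Vn (bs r) v) {S : Type}
    [TopologicalSpace S] (f : C(S, Sph r)) (hf : ∀ s, f s = ∞) : Cc.pull (singMap f) v = 0 := by
  funext p σ
  exact hv p _ fun t => hf (toC σ t)

/-- **The cross product with a generator of `H^r(S^r)` is injective.** -/
theorem cross_ne (hr : 0 < r) {u : Cc (sing X)} (hdu : Cc.d u = 0)
    (hu : ¬ ∃ a : Cc (sing X), Cc.d a = u) {v : Cc (sing (Sph r))} (hvr : Cc.IsDeg r v)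
    (hdv : Cc.d v = 0) (hv : Vn (bs r) v) (hne : ¬ ∃ a : Cc (sing (Sph r)), Cc.d a = v) :
    ¬ ∃ w : Cc (sing (X × Sph r)), Cc.cup 1 (Cc.pull (singMap (fstC X (Sph r))) u)
      (Cc.pull (singMap (sndC X (Sph r))) v) = Cc.d w := by
  rintro ⟨w, hw⟩
  obtain ⟨β, hβ, -, hcx⟩ := cx_class hr hvr hdv hv hne
  set W := (sing X).prod (SN r) with hW
  set ff := SS.fst (sing X) (SN r)
  set ss := SS.snd (sing X) (SN r)
  have e1 : Cc.pull (prCx X r) (Cc.cup 1 (Cc.pull (singMap (fstC X (Sph r))) u)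
      (Cc.pull (singMap (sndC X (Sph r))) v)) = TJ.sn r u +
      Cc.d (Cc.cup 1 (Cc.pull ff u) (Cc.pull ss β)) := by
    rw [pull_cup]
    have h1 : Cc.pull (prCx X r) (Cc.pull (singMap (fstC X (Sph r))) u) = Cc.pull ff u := rfl
    have h2 : Cc.pull (prCx X r) (Cc.pull (singMap (sndC X (Sph r))) v) =
        Cc.pull ss (Cc.pull (cx r) v) := rfl
    rw [h1, h2, hcx, pull_add, cup_add_right, d_cup_one, ← pull_d, hdu, pull_zero,
      cup_zero_left, zero_add, pull_d]
    rfl
  -- the cochain on the boundary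
  set w0 : Cc (sing X) := Cc.pull (singMap (inl X (∞ : Sph r))) w with hw0
  have hdw0 : Cc.d w0 = 0 := by
    rw [hw0, ← pull_d, ← hw, pull_cup]
    have h3 : Cc.pull (singMap (inl X (∞ : Sph r))) (Cc.pull (singMap (sndC X (Sph r))) v) = 0 :=
      pull_const_of_Vn hv ((sndC X (Sph r)).comp (inl X (∞ : Sph r))) fun _ => rfl
    rw [h3, cup_zero_right]
  have hrel : Vn (bdX (sing X) r) (Cc.pull (prCx X r) w + Cc.pull ff w0) := by
    rintro p ⟨σ, τ⟩ h
    have h4 : (prCx X r).app (σ, τ) = (singMap (inl X (∞ : Sph r))).app σ := by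
      apply ContinuousMap.ext
      intro t
      exact Prod.ext rfl (cxC_base h t)
    show w p ((prCx X r).app (σ, τ)) + w p ((singMap (inl X (∞ : Sph r))).app σ) = 0
    rw [h4]
    exact CharTwo.add_self_eq_zero _
  have hd : Cc.d (Cc.pull (prCx X r) w + Cc.pull ff w0) =
      TJ.sn r u + Cc.d (Cc.cup 1 (Cc.pull ff u) (Cc.pull ss β)) := by
    rw [d_add, ← pull_d, ← pull_d, hdw0, pull_zero, add_zero, ← hw, e1]
  have hω : Vn (bdX (sing X) r) (Cc.cup 1 (Cc.pull ff u) (Cc.pull ss β)) :=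
    Vn.cup_right 1 _ (hβ.pull ss)
  have h5 := congrArg (DstN r) hd
  rw [DstN_d hrel, DstN_add (w := TJ.sn r u), DstN_sn, DstN_d hω] at h5
  refine hu ⟨DstN r (Cc.pull (prCx X r) w + Cc.pull ff w0) +
    DstN r (Cc.cup 1 (Cc.pull ff u) (Cc.pull ss β)), ?_⟩
  rw [d_add, h5, add_assoc]
  have h6 := (Cc.cupC (sing X)).two (Cc.d (DstN r (Cc.cup 1 (Cc.pull ff u) (Cc.pull ss β))))
  exact (congrArg (u + ·) h6).trans (add_zero u)

end Vale.Agent.P263.K
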