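import Vale.Agent.P263.K.NotAF
import Vale.Agent.P263.KJ.BoxLit
import Vale.Agent.P263.KJ.StrictId
import Vale.Agent.P263.TJ.CmpH

/-!
# P263, section K: level L2(b) for a chain of boxes
-/

noncomputable section

open OnePoint Topology

namespace Vale.Agent.P263.K

open Vale.Agent.P263.S Vale.Agent.P263.E Vale.Agent.P263.TJ Vale.Agent.P263.G2
  Vale.Agent.P263.T0

/-- change of the cocycle on the pairs of boxes -/
theorem evc_KK {r N k d : ℕ} (C : KJ.Ctr r (KJ.VE r)) {v : Cc (FNr r 2 Unit)}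
    {s : Cc (OFr r (Fin 2))} (hv : (KJ.d2 r).Cl v s) {ξ : Chn (ZMod 2) (FNr r N Unit) d}
    (hξ : IsCyc d ξ) :
    evc (Cc.pull ((KJ.idxFR r N).map (Sb.empty _))
      (KK (KJ.lab2 r).lab (Sb.empty _) 0 0
        (KJ.extP r (Cc.pull (KJ.ellM C) (KJ.Cc.pw (KJ.wP (KJ.VE r)) (k + 1)))))) ξ =
    evc (Cc.pull ((KJ.idxFS r N).map (KJ.npS r))
      (KK (KJ.lab2 r).lab (KJ.npS r) 0 0 (KJ.extP r (KJ.Cc.pw v (k + 1))))) ξ := by
  obtain ⟨β, -, hβ⟩ := KJ.pair_wP_pw C hv k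
  rw [hβ, KJ.extP_add, ← KJ.d_extP, ← KJ.pull_KK_R]
  refine evc_coh (PtF.coh_pull _ (TJ.KK_coh _ ?_ ?_ ?_ 0)) hξ
  · exact fun _ _ h => h.elim
  · exact fun _ _ h => h.elim
  · refine (KJ.d_extP (KJ.Cc.pw v (k + 1))).trans ?_
    rw [KJ.Cc.d_pw hv.d_w]
    funext p F
    by_cases hF : KJ.IsP2 (r := r) (p := p) F
    · exact KJ.extP_of 0 hF
    · exact KJ.extP_of_not 0 hF

theorem eK_zero (n : ℕ) : KJ.eK n 0 = 0 := by
  have h : (KJ.eK n).symm 0 = 0 := by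
    refine (KJ.eK_symm n 0 0 0).trans ?_
    rw [map_zero, show ((0 : KJ.WE n), (0 : KJ.VE n)) = 0 from rfl, map_zero]
    funext j
    refine Fin.addCases (fun j => ?_) (fun j => ?_) j
    · rw [Fin.append_left]
      rfl
    · rw [Fin.append_right]
      rfl
  rw [← h, Homeomorph.apply_symm_apply]

theorem isDeg_congr {X : SS} {m n : ℕ} {c : Cc X} (h : m = n) (hc : Cc.IsDeg m c) :
    Cc.IsDeg n c := h ▸ hc

/-- the index of the functional squares -/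
def iK (r : ℕ) : ℕ := (r + 1) + ((r + 1) * (r + 1) + r)

theorem iK_succ (r : ℕ) : iK r + 1 = (r + 1) + KJ.kk (r + 1) := rfl

/-- the coordinates -/
def eI (r : ℕ) : (Fin (iK r + 1) → ℝ) ≃ₜ (KJ.VE (r + 1) × KJ.WE (r + 1)) × KJ.VE (r + 1) :=
  KJ.eK (r + 1)

theorem eI_zero (r : ℕ) : eI r 0 = 0 := eK_zero (r + 1)

/-- **level L2(b) for a chain of boxes** -/
theorem gamNe2 {r N d c : ℕ} (hcr : c < r) (hc0 : 0 < c) (A : C(T0.Sph d, T0.Om (r + 1)))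
    (hA : A ∞ = T0.Om.const (r + 1)) (cc : GB.Cut) (R : T0.Om (r + 1))
    {v : Cc (FNr (r + 1) 2 Unit)} {s : Cc (OFr (r + 1) (Fin 2))} (hv : (KJ.d2 (r + 1)).Cl v s)
    (hf : IsCyc d (fcyc d))
    {ξ : Chn (ZMod 2) (FNr (r + 1) N Unit) d} (hξ : IsCyc d ξ)
    (hbd : IsBd (push (ZMod 2) (gBR r N cc R) d ξ - push (ZMod 2) (singMap A) d (fcyc d)))
    (hval : evc (Cc.pull ((KJ.idxFS (r + 1) N).map (KJ.npS (r + 1)))
      (KK (KJ.lab2 (r + 1)).lab (KJ.npS (r + 1)) 0 0 (KJ.extP (r + 1) (KJ.Cc.pw v c)))) ξ ≠ 0)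
    (hdc : d = 2 * c) : GamNe A hA c := by
  obtain ⟨k, rfl⟩ : ∃ k, c = k + 1 := ⟨c - 1, by omega⟩
  have hq := KJ.isDeg_pwP (KJ.VE (r + 1)) (k + 1)
  have hx := KJ.d_pwP (KJ.VE (r + 1)) (k + 1)
  obtain ⟨a, ha, -, hcl⟩ := KJ.twT_class k (eI r) hcr
  refine ⟨iK r, iK_succ r, (KJ.twT (eI r) hq hx).b, (KJ.twT (eI r) hq hx).c,
    (KJ.twT (eI r) hq hx).vn_b, (KJ.twT (eI r) hq hx).vn_c, (KJ.twT (eI r) hq hx).d_b, ?_, ?_,
    (KJ.twT (eI r) hq hx).d_c, ⟨a, ha, hcl⟩, fun E hEb hEc => ?_⟩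
  · exact isDeg_congr (add_comm _ _) (KJ.twT_deg_b (eI r) hq hx)
  · exact isDeg_congr (by ring) (KJ.twT_deg_c (eI r) hq hx)
  · refine KJ.l2_lit (eI r) hq hx (eI_zero r) (N := N) (c := cc) (R := R) (d := d)
      (A := sing (T0.Sph d)) (U := (sing (T0.Sph d)).prod (SN (iK r + 1)))
      (U₀ := rb (bs d) (iK r + 1)) (singMap A) (gamA A hA).map (fun x hx => (gamA A hA).mem x hx)
      (SS.Map.id _) (fun x hx => Or.inl hx) ?_ (fc := fcyc d) (ξ := ξ) hf hξ hbd ?_ E hEb hEc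
    · exact KJ.gam_m3 A hA
    · rw [evc_KK (KJ.ctrC r cc) hv hξ]
      exact hval

end Vale.Agent.P263.K
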