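import Vale.Agent.P263.K.HP
import Vale.Agent.P263.K.GamNe2

/-!
# P263, section K: stem `2^{s+1} - 2`, unconditional
-/

noncomputable section

open OnePoint Topology

namespace Vale.Agent.P263.K

open Vale.Agent.P263.S Vale.Agent.P263.E Vale.Agent.P263.TJ Vale.Agent.P263.G2
  Vale.Agent.P263.TOP Vale.Agent.P263.TOP.H Vale.Agent.P263.TW

theorem gamNeOK : @GamNeOK :=
  fun hcr hc0 A hA cc R _ _ hv hf _ hξ hbd hval hdc =>
    gamNe2 hcr hc0 A hA cc R hv hf hξ hbd hval hdc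

/-- **An element whose leading functional has length two is not of Adams filtration at least
three.** -/
theorem hP (d : ℕ) (hd : 0 < d) (g : T0.BMap d) (k : ℕ) (G : Geo d (2 ^ k)) (_hk : 0 < k)
    (h1 : hfun G.phi 1 = 0) (h : G.phi ≠ 0)
    (hst : ∃ r0 : ℕ, ∀ r, r0 ≤ r → Nonempty (Stage G (rkBox (2 ^ k)) g.1.hom r)) :
    ¬ AFge3 g :=
  hP_of gamNeOK hd g k G h1 h hst

end Vale.Agent.P263.K
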