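import Vale.Agent.P263.T0.Hur
import Vale.Agent.P263.TJ.Cube
import Vale.Agent.P263.K.Cyl

/-!
# P263, statement layer: Hopf invariant one, Kervaire invariant one, Curtis's conjecture

* `Rep g n A` : the based map `A : Sᵈ → Ωⁿ Sⁿ` represents `g : Sᵈ → Q₀S⁰`; its adjoint is
  `adjS A : S^{d+n} → Sⁿ`.
* `HopfOne g` : `Sq^{d+1} ≠ 0` in the cofibre of a representative `S^{d+n} → Sⁿ`.
* `AFge3 g` : a representative `S^{d+n} → Sⁿ` is homotopic to a composite of three pointed maps
  which are zero in reduced mod 2 homology (Adams filtration at least three).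
* `KervOne g` : `d = 2^{s+1} - 2`, `s ≥ 1`, and `g` is not of Adams filtration at least three.
* `Curtis` : `h_d(π_d(Q₀S⁰)) = V_d` for all `d > 0`, where `V_d` is the span of the classes `h_d(g)`
  over the `g` with Hopf invariant one or Kervaire invariant one.
-/

open CategoryTheory OnePoint Topology

namespace Vale.Agent.P263.K

open Vale.Agent.P263.T0 Vale.Agent.P263.TJ

/-- The based map `A : Sᵈ → Ωⁿ Sⁿ` represents `g : Sᵈ → Q₀S⁰ ⊆ colim Ωⁿ Sⁿ`. -/
structure Rep {d : ℕ} (g : BMap d) (n : ℕ) (A : C(Sph d, Om n)) : Prop where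
  base : A ∞ = Om.const n
  eq : ∀ x : Sph d, toQ n (A x) = (g.1 x : Q0S0).1

/-- Every `g` has representatives with `n` as large as we want. -/
theorem exists_rep {d : ℕ} (hd : 0 < d) (g : BMap d) (N : ℕ) :
    ∃ n, N ≤ n ∧ ∃ A : C(Sph d, Om n), Rep g n A := by
  obtain ⟨n, hn, f, hf, hfg⟩ := exists_factor_hom hd g.1 g.2 N
  refine ⟨n, hn, ⟨fun x => (f x).1, continuous_subtype_val.comp f.hom.continuous⟩, ?_, ?_⟩
  · exact congrArg Subtype.val hf
  · intro x
    have h := congrArg (fun k : TopCat.of (Sph d) ⟶ Q0S0 => (k x : Q0S0).1) hfg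
    exact h

/-- **Hopf invariant one.** The Steenrod square
`Sq^{d+1} : Hⁿ(Cyl F, S^{d+n}; 𝔽₂) → H^{n+d+1}(Cyl F, S^{d+n}; 𝔽₂)` is not zero, where `Cyl F` is the
mapping cylinder of a representative `F : S^{d+n} → Sⁿ` of `g`, `n = d + 1 + i`. -/
def HopfOne {d : ℕ} (g : BMap d) : Prop :=
  ∃ (n i : ℕ) (A : C(Sph d, Om n)) (h : Rep g n A), n = d + 1 + i ∧
    SqNe (adjS A h.base) (d + 1) i

/-- `f` is a pointed map `(X, x) → (Y, y)` which is zero in reduced mod 2 homology: `f` and the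
constant map induce the same map in singular homology. -/
def ZeroH {X Y : Type} [TopologicalSpace X] [TopologicalSpace Y] (x : X) (y : Y) (f : C(X, Y)) :
    Prop :=
  f x = y ∧ ∀ j : ℕ, (H j).map (TopCat.ofHom f) = (H j).map (TopCat.ofHom (ContinuousMap.const X y))

/-- The pointed map `F : (X, x) → (Y, y)` is homotopic, relative to the base point, to a composite
`X → W₁ → W₂ → Y` of three pointed maps, each of which is zero in reduced mod 2 homology. -/
def Factors3 {X Y : Type} [TopologicalSpace X] [TopologicalSpace Y] (x : X) (y : Y)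
    (F : C(X, Y)) : Prop :=
  ∃ (W₁ W₂ : Type) (_ : TopologicalSpace W₁) (_ : TopologicalSpace W₂) (w₁ : W₁) (w₂ : W₂)
    (f₁ : C(X, W₁)) (f₂ : C(W₁, W₂)) (f₃ : C(W₂, Y)),
    ZeroH x w₁ f₁ ∧ ZeroH w₁ w₂ f₂ ∧ ZeroH w₂ y f₃ ∧ (f₃.comp (f₂.comp f₁)).HomotopicRel F {x}

/-- **Adams filtration at least three**: for some `n`, a representative `S^{d+n} → Sⁿ` of `g` is a
composite of three maps which are zero in reduced mod 2 homology. -/
def AFge3 {d : ℕ} (g : BMap d) : Prop :=
  ∃ (n : ℕ) (A : C(Sph d, Om n)) (h : Rep g n A), Factors3 (∞ : Sph (d + n)) (∞ : Sph n)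
    (adjS A h.base)

/-- **Kervaire invariant one** (in Browder's form): `d = 2^{s+1} - 2` with `s ≥ 1`, and `g` is not of
Adams filtration at least three. -/
def KervOne {d : ℕ} (g : BMap d) : Prop :=
  (∃ s : ℕ, 0 < s ∧ d + 2 = 2 ^ (s + 1)) ∧ ¬ AFge3 g

/-- **Curtis's conjecture**: for all `d > 0`, the image of `h_d` is the span `V_d` of the classes
`h_d(g)`, where `g` has Hopf invariant one or Kervaire invariant one. -/
def Curtis : Prop :=
  ∀ (d : ℕ) (hd : 0 < d), Set.range (hur hd) =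
    (V hd fun g => HopfOne g ∨ KervOne g : Set (HQ d : Type))

/-- The form in which the theorem is proved, for a predicate `P` in the place of `KervOne`. -/
def MainFor (P : ∀ {d : ℕ}, BMap d → Prop) : Prop :=
  ∀ (d : ℕ) (hd : 0 < d) (g : BMap d), hur hd g ≠ 0 →
    ((∃ s : ℕ, d + 1 = 2 ^ s) ∧ HopfOne g) ∨ ((∃ s : ℕ, 0 < s ∧ d + 2 = 2 ^ (s + 1)) ∧ P g)

theorem curtis_of_main {P : ∀ {d : ℕ}, BMap d → Prop} (h : MainFor @P)
    (hP : ∀ (d : ℕ) (_ : 0 < d) (g : BMap d), (∃ s : ℕ, 0 < s ∧ d + 2 = 2 ^ (s + 1)) → P g →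
      KervOne g) : Curtis := by
  intro d hd
  refine range_hur_eq_V hd _ fun g hg => ?_
  rcases h d hd g hg with h1 | ⟨h1, h2⟩
  · exact Or.inl h1.2
  · exact Or.inr (hP d hd g h1 h2)

theorem curtis_of (h : MainFor fun g => KervOne g) : Curtis :=
  curtis_of_main h fun _ _ _ _ h => h

end Vale.Agent.P263.K
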