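import Vale.Agent.P263.K.CofSp
import Vale.Agent.P263.TJ.MuInj

/-!
# P263, section K (helper659): vanishing statements for products with cubes

`timesN_zero` : if `f` is zero in relative cohomology, then so is `f × cube`.
`sph_van`, `sphSN_van` : the relative cohomology of the spheres and of `Sᵈ × cube`.
The same in terms of the groups `(relF A).H`.
-/

noncomputable section

namespace Vale.Agent.P263.K

open Finset
open Vale.Agent.P263.S Vale.Agent.P263.E Vale.Agent.P263.H83 Vale.Agent.P263.G2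
  Vale.Agent.P263.TJ

section prod

variable {X Y : SS}

/-- a map which is zero in relative cohomology is so after the product with a cube -/
theorem timesN_zero {A : Sb X} {B : Sb Y} (f : SS.Map X Y)
    (hf : ∀ {p : ℕ} (x : X.obj p), A.mem x → B.mem (f.app x))
    (h : ∀ w : Cc Y, Vn B w → Cc.d w = 0 → ∃ a : Cc X, Vn A a ∧ Cc.d a = Cc.pull f w) (N : ℕ)
    {w : Cc (Y.prod (SN N))} (hw : Vn (bdX Y N) w) (hwB : Vn (B.comap (SS.fst Y (SN N))) w)
    (hd : Cc.d w = 0) : ∃ a : Cc (X.prod (SN N)), Vn (bdX X N) a ∧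
      Vn (A.comap (SS.fst X (SN N))) a ∧ Cc.d a = Cc.pull (timesN f N) w := by
  obtain ⟨a, ha, hda⟩ := h (DstN N w) (Vn_DstN N hwB) (by rw [← DstN_d hw, hd, DstN_zero])
  refine DstN_exactA (a := a) N ?_ ?_ ha ?_ ?_
  · exact fun p x hx => hw p _ (timesN_ends f N hx)
  · exact fun p x hx => hwB p _ (hf _ hx)
  · rw [← pull_d, hd, pull_zero]
  · rw [hda]
    exact DstN_pull N f w

/-- relative cohomology of `X × cube` -/
theorem prodSN_van {A : Sb X} (N : ℕ)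
    (h : ∀ w : Cc X, Vn A w → Cc.d w = 0 → ∃ a : Cc X, Vn A a ∧ Cc.d a = w)
    {w : Cc (X.prod (SN N))} (hw : Vn (bdX X N) w) (hwA : Vn (A.comap (SS.fst X (SN N))) w)
    (hd : Cc.d w = 0) : ∃ a : Cc (X.prod (SN N)), Vn (bdX X N) a ∧
      Vn (A.comap (SS.fst X (SN N))) a ∧ Cc.d a = w := by
  obtain ⟨a, ha, hda⟩ := h (DstN N w) (Vn_DstN N hwA) (by rw [← DstN_d hw, hd, DstN_zero])
  exact DstN_exactA (a := a) N hw hwA ha hd hda.symm

/-- the same in one degree -/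
theorem prodSN_van_deg {A : Sb X} (N : ℕ) {m : ℕ}
    (h : ∀ w : Cc X, Vn A w → Cc.d w = 0 → Cc.IsDeg m w → ∃ a : Cc X, Vn A a ∧ Cc.d a = w)
    {w : Cc (X.prod (SN N))} (hw : Vn (bdX X N) w) (hwA : Vn (A.comap (SS.fst X (SN N))) w)
    (hd : Cc.d w = 0) (hm : Cc.IsDeg (m + N) w) : ∃ a : Cc (X.prod (SN N)), Vn (bdX X N) a ∧
      Vn (A.comap (SS.fst X (SN N))) a ∧ Cc.d a = w := by
  obtain ⟨a, ha, hda⟩ := h (DstN N w) (Vn_DstN N hwA) (by rw [← DstN_d hw, hd, DstN_zero])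
    (isDeg_DstN hm)
  exact DstN_exactA (a := a) N hw hwA ha hd hda.symm

/-- below the dimension of the cube -/
theorem prodSN_van_low {A : Sb X} (N : ℕ) {m : ℕ} (hmN : m < N)
    {w : Cc (X.prod (SN N))} (hw : Vn (bdX X N) w) (hwA : Vn (A.comap (SS.fst X (SN N))) w)
    (hd : Cc.d w = 0) (hm : Cc.IsDeg m w) : ∃ a : Cc (X.prod (SN N)), Vn (bdX X N) a ∧
      Vn (A.comap (SS.fst X (SN N))) a ∧ Cc.d a = w := by
  have e : DstN N w = 0 := by
    funext p
    exact DstN_degree N (by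
      funext x
      exact hm (p + N) (by omega) x)
  refine DstN_exactA (a := 0) N hw hwA (fun _ _ _ => rfl) hd ?_
  rw [e, d_zero]

end prod

section sph

/-- the relative cohomology of the sphere -/
theorem sph_van {n m : ℕ} (hn : 0 < n) {w : Cc (sing (T0.Sph n))} (hw : Vn (bs n) w)
    (hd : Cc.d w = 0) (hm : Cc.IsDeg m w) (hmn : m ≠ n) :
    ∃ a : Cc (sing (T0.Sph n)), Vn (bs n) a ∧ Cc.d a = w := by
  obtain ⟨a, ha⟩ := SphCc.rel_van hn hmn (Cc.mkRel (bs n) w hw) hm (Cc.rel_ext hd)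
  rw [add_zero] at ha
  exact ⟨Cc.val a, Cc.vn_val a, (congrArg Cc.val ha).symm⟩

/-- the relative cohomology of `Sᵈ × cube` -/
theorem sphSN_van {d N m : ℕ} (hn : 0 < d) {w : Cc ((sing (T0.Sph d)).prod (SN N))}
    (hw : Vn (bdX (sing (T0.Sph d)) N) w) (hwA : Vn ((bs d).comap (SS.fst _ (SN N))) w)
    (hd : Cc.d w = 0) (hm : Cc.IsDeg m w) (hmn : m ≠ d + N) :
    ∃ a : Cc ((sing (T0.Sph d)).prod (SN N)), Vn (bdX (sing (T0.Sph d)) N) a ∧
      Vn ((bs d).comap (SS.fst _ (SN N))) a ∧ Cc.d a = w := by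
  rcases Nat.lt_or_ge m N with h | h
  · exact prodSN_van_low N h hw hwA hd hm
  · obtain ⟨k, rfl⟩ : ∃ k, m = k + N := ⟨m - N, by omega⟩
    exact prodSN_van_deg N (m := k) (fun w hw hd hm => sph_van hn hw hd hm (by omega)) hw hwA hd hm

end sph

section groups

open Cof

variable {X Y : SS}

/-- the groups `H` and the cochains -/
theorem H_zero_of {A : Sb X} {m : ℕ}
    (h : ∀ w : Cc X, Vn A w → Cc.d w = 0 → Cc.IsDeg m w → ∃ a : Cc X, Vn A a ∧ Cc.d a = w)
    (x : (relF A).H m) : x = 0 := by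
  obtain ⟨u, hA, hd, hm, rfl⟩ := exists_rcl A x
  rw [rcl_eq_zero_iff A hm]
  exact h u hA hd hm

theorem pull_zero_of {A : Sb X} {B : Sb Y} (f : PMap A B) {m : ℕ}
    (h : ∀ w : Cc Y, Vn B w → Cc.d w = 0 → Cc.IsDeg m w →
      ∃ a : Cc X, Vn A a ∧ Cc.d a = Cc.pull f.map w) (x : (relF B).H m) : f.pull.H m x = 0 := by
  obtain ⟨u, hB, hd, hm, rfl⟩ := exists_rcl B x
  have hA' : Vn A (Cc.pull f.map u) := fun p x hx => hB p _ (f.mem x hx)
  have hd' : Cc.d (Cc.pull f.map u) = 0 := by rw [← pull_d, hd, pull_zero]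
  rw [PMap.pull, relPull_rcl f.map A B f.mem m hB hd hA' hd',
    rcl_eq_zero_iff A (hm.pull f.map)]
  exact h u hB hd hm

end groups

end Vale.Agent.P263.K
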