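import Vale.Agent.P263.K.Stmt
import Vale.Agent.P263.TJ.SphCc
import Vale.Agent.P263.TJ.SqMu

/-!
# P263, section K (helper659): maps which are zero in reduced homology

`zeroH_rel` : the pull-back of a relative cocycle along a map which is zero in reduced mod 2
homology is a relative coboundary.
-/

noncomputable section

namespace Vale.Agent.P263.K

open Finset CategoryTheory
open Vale.Agent.P263.S Vale.Agent.P263.E Vale.Agent.P263.H83 Vale.Agent.P263.G2
  Vale.Agent.P263.TJ

section zero

variable {X Y : Type} [TopologicalSpace X] [TopologicalSpace Y]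

/-- the class of the function of a cocycle on the image of a map -/
theorem fn_pull (f : C(X, Y)) {n : ℕ} {c : (TopCat.toSSet.obj (TopCat.of Y)).obj
    (Opposite.op (SimplexCategory.mk n)) → ZMod 2} {w : Cc (sing Y)}
    (hc : T0.SphH.fn c = fnC w n) :
    T0.SphH.fn (T0.pull (TopCat.toSSet.map (TopCat.ofHom f)) c) =
      fnC (Cc.pull (singMap f) w) n := by
  funext τ
  exact congrFun hc (f.comp τ)

theorem isCobd_pull {x : X} {y : Y} {f : C(X, Y)} (h : ZeroH x y f) {w : Cc (sing Y)}
    (hw : Vn (cstAt y) w) (hd : Cc.d w = 0) {n : ℕ} {c : (TopCat.toSSet.obj (TopCat.of Y)).obj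
    (Opposite.op (SimplexCategory.mk n)) → ZMod 2} (hc : T0.SphH.fn c = fnC w n) :
    T0.IsCobd (TopCat.toSSet.obj (TopCat.of X))
      (T0.pull (TopCat.toSSet.map (TopCat.ofHom f)) c) := by
  have h0 : T0.cobd (TopCat.toSSet.obj (TopCat.of Y)) c = 0 := by
    rw [← T0.SphH.cob_eq_zero_iff, hc]
    exact cob_eq_zero hd
  have h1 : T0.pull (TopCat.toSSet.map (TopCat.ofHom (ContinuousMap.const X y))) c = 0 := by
    rw [← T0.SphH.fn_eq_zero_iff, fn_pull _ hc]
    funext τ
    exact hw n _ (fun _ => rfl)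
  have h2 := (T0.homologyMap_evH (TopCat.toSSet.obj (TopCat.of X))
    (TopCat.toSSet.map (TopCat.ofHom f)) c h0)
  have h3 := (T0.homologyMap_evH (TopCat.toSSet.obj (TopCat.of X))
    (TopCat.toSSet.map (TopCat.ofHom (ContinuousMap.const X y))) c h0)
  have h4 : SSet.homologyMap (TopCat.toSSet.map (TopCat.ofHom f)) T0.RF2 n =
    SSet.homologyMap (TopCat.toSSet.map (TopCat.ofHom (ContinuousMap.const X y))) T0.RF2 n :=
    h.2 n
  rw [h4, h3] at h2
  rw [← T0.evH_eq_zero_iff _ _ (T0.pull_cocycle _ _ h0), ← h2, T0.evH_eq_zero_iff, h1]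
  cases n with
  | zero => rfl
  | succ n => exact ⟨0, by funext x; simp [T0.cobd]⟩

/-- **Maps which are zero in reduced mod 2 homology** are zero in relative cohomology. -/
theorem zeroH_rel {x : X} {y : Y} {f : C(X, Y)} (h : ZeroH x y f) {w : Cc (sing Y)}
    (hw : Vn (cstAt y) w) (hd : Cc.d w = 0) :
    ∃ a : Cc (sing X), Vn (cstAt x) a ∧ Cc.d a = Cc.pull (singMap f) w := by
  have key : ∀ n : ℕ, ∃ g : C(P246.T.Dl (n + 1), X) → ZMod 2,
      fnC (Cc.pull (singMap f) w) (n + 1) = T0.SphH.cob g := by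
    intro n
    obtain ⟨c, hc⟩ := T0.SphH.exists_fn (fnC w (n + 1))
    obtain ⟨g, hg⟩ := (T0.SphH.isCobd_iff_exists _).1 (isCobd_pull h hw hd hc)
    exact ⟨g, (fn_pull f hc).symm.trans hg⟩
  have key0 : Cc.pull (singMap f) w 0 = 0 := by
    obtain ⟨c, hc⟩ := T0.SphH.exists_fn (fnC w 0)
    have h1 : T0.pull (TopCat.toSSet.map (TopCat.ofHom f)) c = 0 := isCobd_pull h hw hd hc
    have h2 := (fn_pull f hc).symm
    rw [h1] at h2
    exact h2
  choose g hg using key
  set u : Cc (sing X) := fun n σ => g n σ with hu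
  have hdu : Cc.d u = Cc.pull (singMap f) w := by
    funext n
    cases n with
    | zero =>
      rw [key0]
      funext σ
      exact d_zero_apply u σ
    | succ n => exact (cob_fnC u n).symm.trans (hg n).symm
  set k : SS.Map (sing X) (sing X) := singMap (ContinuousMap.const X x) with hk
  have hkc : ∀ {p : ℕ} (σ : (sing X).obj p), (cstAt x).mem σ → k.app σ = σ :=
    fun σ hσ => ContinuousMap.ext fun t => (hσ t).symm
  refine ⟨u + Cc.pull k u, ?_, ?_⟩
  · intro p σ hσ
    show u p σ + u p (k.app σ) = 0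
    rw [hkc σ hσ]
    exact CharTwo.add_self_eq_zero _
  · rw [d_add, ← pull_d, hdu]
    have h1 : Cc.pull k (Cc.pull (singMap f) w) = 0 := by
      funext p σ
      exact hw p _ (fun _ => h.1)
    rw [h1, add_zero]

end zero

end Vale.Agent.P263.K
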