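import Vale.Agent.P263.K.AF3Map
import Vale.Agent.P263.K.AFVan
import Vale.Agent.P263.K.AFZero
import Vale.Agent.P263.K.HSI
import Vale.Agent.P263.KJ.M3

/-!
# P263, section K: the Adams filtration lemma for the literal data

`Dat` : the geometric data; `Dat.af` : the instance of `AFSp`; `Dat.coh` : for `c + 1 = 2 ^ s`,
`s ≥ 1`, `d = 2 c`, a functional square of `γ` on the class `v^c` is a pull-back.
-/

noncomputable section

open OnePoint Topology

namespace Vale.Agent.P263.K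

open Vale.Agent.P263.S Vale.Agent.P263.E Vale.Agent.P263.TJ Vale.Agent.P263.G2
  Vale.Agent.P263.T0 Vale.Agent.P263.Cof

/-- the geometric data: a factorisation of the adjoint of `A₀`, the stabilization `A` of `A₀`, maps
`γ` and `lam` with `lam γ ≃ (adjoint of A) ∧ id` -/
structure Dat (d n0 j k : ℕ) (P : Type) [TopologicalSpace P] [CompactSpace P] [T2Space P] where
  A₀ : C(Sph d, Om n0)
  hA₀ : A₀ ∞ = Om.const n0
  W₁ : Type
  W₂ : Type
  [t₁ : TopologicalSpace W₁]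
  [t₂ : TopologicalSpace W₂]
  w₁ : W₁
  w₂ : W₂
  f₁ : C(Sph (d + n0), W₁)
  f₂ : C(W₁, W₂)
  f₃ : C(W₂, Sph n0)
  z₁ : ZeroH ∞ w₁ f₁
  z₂ : ZeroH w₁ w₂ f₂
  z₃ : ZeroH w₂ ∞ f₃
  hf : (f₃.comp (f₂.comp f₁)).HomotopicRel (adjS A₀ hA₀) {∞}
  A : C(Sph d, Om (n0 + j))
  hA : A ∞ = Om.const (n0 + j)
  hAA : ∀ x, A x = stabN n0 j (A₀ x)
  γ : C(Sph (d + (n0 + j) + k), OnePoint ((Fin (n0 + j + k) → ℝ) × P))
  hγ : γ ∞ = ∞
  lam : C(OnePoint ((Fin (n0 + j + k) → ℝ) × P), Sph (n0 + j + k))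
  hlam : lam ∞ = ∞
  sF : C(Sph (d + (n0 + j) + k), Sph (n0 + j + k))
  hsF : ∀ u w, sF (join2 u w) = join2 (adjS A hA u) w
  kp : (lam.comp γ).HomotopicRel sF {∞}

namespace Dat

attribute [instance] Dat.t₁ Dat.t₂

variable {d n0 j k : ℕ} {P : Type} [TopologicalSpace P] [CompactSpace P] [T2Space P]
variable (D : Dat d n0 j k P)

/-- the composite is homotopic to the factored map, relative to the boundary -/
theorem hom : ((D.lam.comp D.γ).comp (qZ d (n0 + j) k)).HomotopicRel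
    (tZ j k (D.f₃.comp (D.f₂.comp D.f₁))) (bdZ d (n0 + j + k)) := by
  have h1 := homotopicRel_comp D.kp (qZ d (n0 + j) k) (S' := bdZ d (n0 + j + k))
    fun z hz => qZ_bd hz
  rw [sF_qZ D.hA₀ D.hA D.hAA D.hsF] at h1
  refine h1.trans ((tZ_homotopicRel j k ?_ D.hf).symm)
  show D.f₃ (D.f₂ (D.f₁ ∞)) = ∞
  rw [D.z₁.1, D.z₂.1, D.z₃.1]

/-- the homotopy -/
def H : ((D.lam.comp D.γ).comp (qZ d (n0 + j) k)).HomotopyRel
    (tZ j k (D.f₃.comp (D.f₂.comp D.f₁))) (bdZ d (n0 + j + k)) := D.hom.some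

/-- `γ` on `Sᵈ × cube` -/
def gam : PMap (rb (bs d) (n0 + j + k)) (bsT (n0 + j + k) P) where
  map := (singMap D.γ).comp (KJ.m3 d (n0 + j) k)
  mem {p} z h t := by
    show D.γ (qZ d (n0 + j) k (zC (Sph d) (n0 + j + k) z t)) = ∞
    rw [qZ_bd (zC_bd h t), D.hγ]

/-- `lam` -/
def lamP : PMap (bsT (n0 + j + k) P) (bs (n0 + j + k)) where
  map := singMap D.lam
  mem {p} z h t := by
    show D.lam (toC z t) = ∞
    rw [show toC z t = ∞ from h t, D.hlam]

/-- the first map -/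
def m1 : PMap (rb (bs d) (n0 + j + k)) (rb (cstAt D.w₁) (j + k)) where
  map := (timesN (singMap D.f₁) (j + k)).comp (psi d n0 j k)
  mem _ h := timesN_mem D.z₁.1 (j + k) (psi_mem h)

/-- the second map -/
def m2 : PMap (rb (cstAt D.w₁) (j + k)) (rb (cstAt D.w₂) (j + k)) where
  map := timesN (singMap D.f₂) (j + k)
  mem _ h := timesN_mem D.z₂.1 (j + k) h

/-- the third map -/
def m3' : PMap (rb (cstAt D.w₂) (j + k)) (bs (n0 + j + k)) where
  map := s3 n0 j k D.f₃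
  mem _ h := s3_mem D.z₃.1 h

theorem m1_zero (q : ℕ) (x) : D.m1.pull.H q x = 0 := by
  refine pull_zero_of D.m1 (fun w hw hd _ => ?_) x
  obtain ⟨a, h1, h2, h3⟩ := timesN_zero (A := bs (d + n0)) (singMap D.f₁)
    (fun {p} y hy t => (congrArg D.f₁ (hy t)).trans D.z₁.1)
    (fun w hw hd => zeroH_rel D.z₁ hw hd) (j + k) (w := w) (fun p y hy => hw p y (Or.inl hy))
    (fun p y hy => hw p y (Or.inr hy)) hd
  refine ⟨Cc.pull (psi d n0 j k) a, fun p y hy => ?_, ?_⟩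
  · rcases psi_mem hy with h | h
    · exact h1 p _ h
    · exact h2 p _ h
  · rw [← pull_d, h3]
    rfl

theorem m2_zero (q : ℕ) (x) : D.m2.pull.H q x = 0 := by
  refine pull_zero_of D.m2 (fun w hw hd _ => ?_) x
  obtain ⟨a, h1, h2, h3⟩ := timesN_zero (A := cstAt D.w₁) (singMap D.f₂)
    (fun {p} y hy t => (congrArg D.f₂ (hy t)).trans D.z₂.1)
    (fun w hw hd => zeroH_rel D.z₂ hw hd) (j + k) (w := w) (fun p y hy => hw p y (Or.inl hy))
    (fun p y hy => hw p y (Or.inr hy)) hd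
  refine ⟨a, fun p y hy => ?_, h3⟩
  rcases hy with h | h
  · exact h1 p _ h
  · exact h2 p _ h

theorem s3_comp : s3 n0 j k D.f₃ = (s3 n0 j k (ContinuousMap.id (Sph n0))).comp
    (timesN (singMap D.f₃) (j + k)) := rfl

theorem m3_zero (q : ℕ) (x) : D.m3'.pull.H q x = 0 := by
  refine pull_zero_of D.m3' (fun w hw hd _ => ?_) x
  obtain ⟨a, h1, h2, h3⟩ := timesN_zero (A := cstAt D.w₂) (B := cstAt (∞ : Sph n0))
    (singMap D.f₃) (fun {p} y hy t => (congrArg D.f₃ (hy t)).trans D.z₃.1)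
    (fun w hw hd => zeroH_rel D.z₃ hw hd) (j + k)
    (w := Cc.pull (s3 n0 j k (ContinuousMap.id (Sph n0))) w)
    (fun p y hy => hw p _ (s3_mem (w := (∞ : Sph n0)) rfl (Or.inl hy)))
    (fun p y hy => hw p _ (s3_mem (w := (∞ : Sph n0)) rfl (Or.inr hy)))
    (by rw [← pull_d, hd, pull_zero])
  refine ⟨a, fun p y hy => ?_, h3⟩
  rcases hy with h | h
  · exact h1 p _ h
  · exact h2 p _ h

theorem htp0 {p : ℕ} (x : (sU d (n0 + j + k)).obj p) :
    (cylMap D.H).app (x, c0 p) = D.lamP.map.app (D.gam.map.app x) := cylMap_zero D.H x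

theorem htp1 {p : ℕ} (x : (sU d (n0 + j + k)).obj p) :
    (cylMap D.H).app (x, c1 p) = D.m3'.map.app (D.m2.map.app (D.m1.map.app x)) :=
  cylMap_one D.H x

theorem htp_mem {p : ℕ} (z : (cylS (sU d (n0 + j + k))).obj p)
    (h : (rb (bs d) (n0 + j + k)).mem z.1) : (bs (n0 + j + k)).mem ((cylMap D.H).app z) := by
  refine cylMap_mem D.H (fun z hz => ?_) z h
  show D.lam (D.γ (qZ d (n0 + j) k z)) = ∞
  rw [qZ_bd hz, D.hγ, D.hlam]

/-- **The instance of the Adams filtration lemma.** -/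
def af (hd : 0 < d) {r c : ℕ} (hr : r + 1 = n0 + j + k) (hc : 2 * c ≤ d) (hcr : 2 * c ≤ r)
    (hG : ∀ x : (relF (bsT (n0 + j + k) P)).H r, x = 0)
    (hinst : ∀ q a m (x : (relF (bsT (n0 + j + k) P)).H (r + 1 + q)), q < a → m = r + 1 + q + a →
      (relF (bsT (n0 + j + k) P)).sq (r + 1 + q) m x = 0)
    (b : Cc (sing (Sph (n0 + j + k)))) (b_vn : Vn (bs (n0 + j + k)) b) (d_b : Cc.d b = 0)
    (b_deg : Cc.IsDeg (r + 1) b)
    (lam_zero : ∀ x : (relF (bs (n0 + j + k))).H (r + 1), D.lamP.pull.H (r + 1) x = 0)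
    (v : ∀ i, (relF (bsT (n0 + j + k) P)).H (r + 1 + i))
    (fs : ∀ i, i ≤ 2 * c → IsFS D.lamP r b i (v i)) : AFSp r c where
  γ := D.gam
  a1 := D.m1
  a2 := D.m2
  a3 := D.m3'
  lam := D.lamP
  htp := cylMap D.H
  htp_mem := D.htp_mem
  htp0 := D.htp0
  htp1 := D.htp1
  a2_zero := D.m2_zero
  a1_zero := D.m1_zero
  hU q h1 h2 x := H_zero_of (fun w hw hdw hm => by
    obtain ⟨a, ha1, ha2, ha3⟩ := sphSN_van (N := n0 + j + k) hd
      (fun p y hy => hw p y (Or.inl hy)) (fun p y hy => hw p y (Or.inr hy)) hdw hm (by omega)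
    exact ⟨a, fun p y hy => hy.elim (ha1 p y) (ha2 p y), ha3⟩) x
  hT q h1 h2 x := H_zero_of (fun w hw hdw hm => sph_van (by omega) hw hdw hm (by omega)) x
  hG := hG
  lam_zero := lam_zero
  b := b
  b_vn := b_vn
  d_b := d_b
  b_deg := b_deg
  a3_zero := D.m3_zero _ _
  v := v
  sq_v i q hiq := sq_v_of_fs D.lamP b_vn d_b hG b_deg hcr v fs hinst
    (fun q h1 h2 x => H_zero_of (fun w hw hdw hm => sph_van (by omega) hw hdw hm (by omega)) x)
    i q hiq
  hcr := by omega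
  fs i hi := fs i (by omega)

end Dat

end Vale.Agent.P263.K
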