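import Vale.Agent.P263.K.AF3

/-!
# P263, section K: the contradiction for the literal data

`Dat.contra` : a non-zero functional square of `γ` on the class `v^c` contradicts the
factorisation.
-/

noncomputable section

open OnePoint Topology

namespace Vale.Agent.P263.K

open Vale.Agent.P263.S Vale.Agent.P263.E Vale.Agent.P263.TJ Vale.Agent.P263.G2
  Vale.Agent.P263.T0 Vale.Agent.P263.Cof

variable {d n0 j k : ℕ} {P : Type} [TopologicalSpace P] [CompactSpace P] [T2Space P]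

theorem rb_elim {X : SS} {A : Sb X} {m : ℕ} {w : Cc (X.prod (SN m))} (h1 : Vn (bdX X m) w)
    (h2 : Vn (A.comap (SS.fst X (SN m))) w) : Vn (rb A m) w := fun p x hx =>
  hx.elim (h1 p x) (h2 p x)

/-- **The contradiction.** -/
theorem Dat.contra (D : Dat d n0 j k P) (hd : 0 < d) {r c s : ℕ} (hr : r + 1 = n0 + j + k)
    (hdc : d = 2 * c) (hs : 1 ≤ s) (hc : c + 1 = 2 ^ s) (hcr : 2 * c ≤ r)
    (hG : ∀ x : (relF (bsT (n0 + j + k) P)).H r, x = 0)
    (hinst : ∀ q a m (x : (relF (bsT (n0 + j + k) P)).H (r + 1 + q)), q < a → m = r + 1 + q + a →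
      (relF (bsT (n0 + j + k) P)).sq (r + 1 + q) m x = 0)
    (b : Cc (sing (Sph (n0 + j + k)))) (b_vn : Vn (bs (n0 + j + k)) b) (d_b : Cc.d b = 0)
    (b_deg : Cc.IsDeg (r + 1) b)
    (lam_zero : ∀ x : (relF (bs (n0 + j + k))).H (r + 1), D.lamP.pull.H (r + 1) x = 0)
    (v : ∀ i, (relF (bsT (n0 + j + k) P)).H (r + 1 + i))
    (fs : ∀ i, i ≤ 2 * c → IsFS D.lamP r b i (v i))
    {bb cc : Cc (sing (OnePoint ((Fin (n0 + j + k) → ℝ) × P)))}
    (vb : Vn (bsT (n0 + j + k) P) bb) (vc : Vn (bsT (n0 + j + k) P) cc) (db : Cc.d bb = 0)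
    (hbb : Cc.IsDeg (r + 1 + c) bb) (hcc : Cc.IsDeg (r + 1 + 2 * c) cc)
    (hcup : Cc.cup (r + 1) bb bb = Cc.d cc)
    (hv : rcl (bsT (n0 + j + k) P) (r + 1 + c) bb vb db = v c)
    (hind : ∀ y : Cc (sing (OnePoint ((Fin (n0 + j + k) → ℝ) × P))), Vn (bsT (n0 + j + k) P) y →
      Cc.d y = 0 → Cc.IsDeg (r + 1 + 2 * c) y →
      ∃ a, Vn (rb (bs d) (n0 + j + k)) a ∧ Cc.d a = Cc.pull D.gam.map y)
    (L2 : ∀ E : CupC.FSqD D.gam.hom r, Cc.val E.b = bb → Cc.val E.c = cc →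
      ¬ (Cc.rel (rb (bs d) (n0 + j + k))).Coh E.val 0) : False := by
  have hc1 : 1 ≤ c := by
    have h2 : 2 ^ 1 ≤ 2 ^ s := Nat.pow_le_pow_right (by norm_num) hs
    omega
  have hg : Vn (rb (bs d) (n0 + j + k)) (Cc.pull D.gam.map bb) := fun p x hx =>
    vb p _ (D.gam.mem x hx)
  obtain ⟨e0, h1, h2, h3⟩ := sphSN_van (N := n0 + j + k) hd
    (fun p y hy => hg p y (Or.inl hy)) (fun p y hy => hg p y (Or.inr hy))
    (by rw [← pull_d, db, pull_zero]) (hbb.pull D.gam.map) (by omega)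
  have hbb' : Cc.IsDeg (r + c + 1) (Cc.pull D.gam.map bb) := by
    have h := hbb.pull D.gam.map
    rwa [show r + 1 + c = r + c + 1 by omega] at h
  have he : Cc.d (Cc.hom (r + c) e0) = Cc.pull D.gam.map bb := by
    rw [d_hom, h3, hom_of_isDeg hbb']
  let E : CupC.FSqD D.gam.hom r :=
    { b := Cc.mkRel _ bb vb
      e := Cc.mkRel _ (Cc.hom (r + c) e0) ((rb_elim h1 h2).hom (r + c))
      c := Cc.mkRel _ cc vc
      d_b := Cc.rel_ext db
      d_e := Cc.rel_ext he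
      d_c := Cc.rel_ext hcup }
  have hE : E.Homog (Cc.relGr _) (Cc.relGr _) (r + c) (r + 1 + 2 * c) :=
    ⟨by
      show Cc.IsDeg (r + c + 1) bb
      rwa [show r + 1 + c = r + c + 1 by omega] at hbb,
      isDeg_hom _ _, hcc, by omega⟩
  have hval : Cc.IsDeg (r + 1 + 2 * c) (Cc.val E.val) :=
    CupC.FSqD.val_mem hE fun x hx => Cc.IsDeg.pull (u := Cc.val x) hx _
  obtain ⟨y, a, hy0, hyd, hydeg, ha, hda⟩ :
      ∃ (y : Cc (sing (OnePoint ((Fin (n0 + j + k) → ℝ) × P)))) (a : Cc (sU d (n0 + j + k))),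
        Vn (bsT (n0 + j + k) P) y ∧ Cc.d y = 0 ∧ Cc.IsDeg (r + 1 + 2 * c) y ∧
        Vn (rb (bs d) (n0 + j + k)) a ∧
        Cc.d a = (Cc.val E.val : Cc (sU d (n0 + j + k))) + Cc.pull D.gam.map y :=
    (D.af hd hr (le_of_eq hdc.symm) hcr hG hinst b b_vn
      d_b b_deg lam_zero v fs).coh s hs hc (i := r) (by omega) E hbb (isDeg_hom _ _) hval hv
  obtain ⟨a', ha', hda'⟩ := hind y hy0 hyd hydeg
  refine L2 E rfl rfl ⟨Cc.mkRel _ (a + a') (Vn.add ha ha'), Cc.rel_ext ?_⟩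
  show (Cc.val E.val : Cc (sU d (n0 + j + k))) + 0 = Cc.d (a + a')
  rw [d_add, hda, hda']
  generalize (Cc.val E.val : Cc (sU d (n0 + j + k))) = u
  generalize (Cc.pull D.gam.map y : Cc (sU d (n0 + j + k))) = w
  have h5 : u + w + w = u + (w + w) := add_assoc u w w
  rw [h5, cc_self]

end Vale.Agent.P263.K
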