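import Vale.Agent.P263.K.AF3End

/-!
# P263, section K: the contradiction, in terms of the classes on the cube
-/

noncomputable section

open OnePoint Topology

namespace Vale.Agent.P263.K

open Vale.Agent.P263.S Vale.Agent.P263.E Vale.Agent.P263.TJ Vale.Agent.P263.G2
  Vale.Agent.P263.T0 Vale.Agent.P263.Cof

theorem rcl_d {X : SS} (A : Sb X) {m : ℕ} (hm : 0 < m) {a : Cc X} (ha : Vn A a)
    (h1 : Vn A (Cc.d a)) (h2 : Cc.d (Cc.d a) = 0) : rcl A m (Cc.d a) h1 h2 = 0 := by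
  obtain ⟨m, rfl⟩ : ∃ m', m = m' + 1 := ⟨m - 1, by omega⟩
  rw [rcl, CosMod.cls_eq_zero_iff]
  exact ⟨rto A m a ha, rto_d A m a ha⟩

theorem rcl_congr {X : SS} (A : Sb X) {m : ℕ} {u v : Cc X} (h : u = v) (h1 : Vn A u)
    (h2 : Cc.d u = 0) (h3 : Vn A v) (h4 : Cc.d v = 0) : rcl A m u h1 h2 = rcl A m v h3 h4 := by
  subst h
  rfl

/-- two relative cocycles which differ by a relative coboundary -/
theorem rcl_eq_of_d {X : SS} (A : Sb X) {m : ℕ} (hm : 0 < m) {u v : Cc X} (hu : Vn A u)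
    (du : Cc.d u = 0) (hv : Vn A v) (dv : Cc.d v = 0) {a : Cc X} (ha : Vn A a)
    (hda : Cc.d a = u + v) : rcl A m u hu du = rcl A m v hv dv := by
  have h0 : rcl A m (Cc.d a) ha.d (d_d a) = 0 := rcl_d A hm ha _ _
  have h1 : Vn A (u + v) := hu.add hv
  have h2 : Cc.d (u + v) = 0 := by rw [d_add, du, dv, add_zero]
  rw [rcl_congr A hda ha.d (d_d a) h1 h2, rcl_add A m hu du hv dv h1 h2] at h0
  have h3 : rcl A m v hv dv + rcl A m v hv dv = 0 := by
    rw [← rcl_add A m hv dv hv dv (hv.add hv) (by rw [d_add, dv, add_zero])]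
    have h5 : v + v = Cc.d 0 := by rw [cc_self, d_zero]
    rw [rcl_congr A h5 _ _ Vn.zero.d (d_d 0)]
    exact rcl_d A hm Vn.zero _ _
  exact add_right_cancel (h0.trans h3.symm)

section T

variable {K : ℕ} {P : Type} [TopologicalSpace P] [CompactSpace P] [T2Space P]

/-- classes on `T` are detected on the cube -/
theorem rcl_eq_of_muT {m : ℕ} (hm : 0 < m) {u v : Cc (sing (OnePoint ((Fin K → ℝ) × P)))}
    (hu : Vn (bsT K P) u) (du : Cc.d u = 0) (hv : Vn (bsT K P) v) (dv : Cc.d v = 0)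
    {a : Cc ((sing P).prod (SN K))} (ha : Vn (bdX (sing P) K) a)
    (hda : Cc.d a = Cc.pull (muT K P) u + Cc.pull (muT K P) v) :
    rcl (bsT K P) m u hu du = rcl (bsT K P) m v hv dv := by
  obtain ⟨b, hb, hbd⟩ := (relIso_muT K P).inj (u + v) (hu.add hv)
    (by rw [d_add, du, dv, add_zero]) ⟨a, ha, by rw [hda, pull_add]⟩
  exact rcl_eq_of_d _ hm hu du hv dv hb hbd

/-- the functional squares of `lam` on a class `b` of degree `r + 1 = K`, and `lam^* = 0` -/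
def FSOK (K : ℕ) (P : Type) [TopologicalSpace P] [CompactSpace P] [T2Space P]
    (x : ℕ → Cc (sing P)) (lam : PMap (bsT K P) (bs K)) (r : ℕ) : Prop :=
  ∃ b : Cc (sing (Sph K)), Vn (bs K) b ∧ Cc.d b = 0 ∧ Cc.IsDeg (r + 1) b ∧
    (∀ y : (relF (bs K)).H (r + 1), lam.pull.H (r + 1) y = 0) ∧
    ∀ j, j ≤ r → ∃ D : CupC.FSqD lam.hom (r - j), Cc.val D.b = b ∧ Cc.IsDeg r (Cc.val D.e) ∧
      ∃ a, Vn (bdX (sing P) K) a ∧ Cc.pull (muT K P) (Cc.val D.val) = TJ.sn K (x j) + Cc.d a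

end T

variable {d n0 j k : ℕ} {P : Type} [TopologicalSpace P] [CompactSpace P] [T2Space P]

/-- **The contradiction**, in terms of the classes on the cube. -/
theorem Dat.contra2 (D : Dat d n0 j k P) (hd : 0 < d) {r c s : ℕ} (hr : r + 1 = n0 + j + k)
    (hdc : d = 2 * c) (hs : 1 ≤ s) (hc : c + 1 = 2 ^ s) (hcr : 2 * c ≤ r)
    (hG : ∀ x : (relF (bsT (n0 + j + k) P)).H r, x = 0)
    (hinst : ∀ q a m (x : (relF (bsT (n0 + j + k) P)).H (r + 1 + q)), q < a → m = r + 1 + q + a →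
      (relF (bsT (n0 + j + k) P)).sq (r + 1 + q) m x = 0)
    {x : ℕ → Cc (sing P)} (hlam : FSOK (n0 + j + k) P x D.lamP r)
    {bb cc : Cc (sing (OnePoint ((Fin (n0 + j + k) → ℝ) × P)))}
    (vb : Vn (bsT (n0 + j + k) P) bb) (vc : Vn (bsT (n0 + j + k) P) cc) (db : Cc.d bb = 0)
    (hbb : Cc.IsDeg (r + 1 + c) bb) (hcc : Cc.IsDeg (r + 1 + 2 * c) cc)
    (hcup : Cc.cup (r + 1) bb bb = Cc.d cc)
    (hv : ∃ a, Vn (bdX (sing P) (n0 + j + k)) a ∧
      Cc.pull (muT (n0 + j + k) P) bb = TJ.sn (n0 + j + k) (x c) + Cc.d a)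
    (hind : ∀ y : Cc (sing (OnePoint ((Fin (n0 + j + k) → ℝ) × P))), Vn (bsT (n0 + j + k) P) y →
      Cc.d y = 0 → Cc.IsDeg (r + 1 + 2 * c) y →
      ∃ a, Vn (rb (bs d) (n0 + j + k)) a ∧ Cc.d a = Cc.pull D.gam.map y)
    (L2 : ∀ E : CupC.FSqD D.gam.hom r, Cc.val E.b = bb → Cc.val E.c = cc →
      ¬ (Cc.rel (rb (bs d) (n0 + j + k))).Coh E.val 0) : False := by
  classical
  obtain ⟨b, b_vn, d_b, b_deg, lam_zero, hF⟩ := hlam
  choose DD h1 h2 a h3 h4 using hF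
  obtain ⟨a', h5, h6⟩ := hv
  refine D.contra hd hr hdc hs hc hcr hG hinst b b_vn d_b b_deg lam_zero
    (fun i => if h : i ≤ r then rcl (bsT (n0 + j + k) P) (r + 1 + i) (Cc.val (DD i h).val)
      (Cc.vn_val (DD i h).val) (congrArg Cc.val (DD i h).d_val) else 0) (fun i hi => ?_)
    vb vc db hbb hcc hcup ?_ hind L2
  · have hir : i ≤ r := hi.trans hcr
    refine ⟨DD i hir, h1 i hir, h2 i hir, ?_⟩
    rw [dif_pos hir]
  · have hcr' : c ≤ r := by omega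
    rw [dif_pos hcr']
    refine rcl_eq_of_muT (by omega) vb db _ _ (a := a' + a c hcr') (h5.add (h3 c hcr')) ?_
    rw [d_add, h6, h4 c hcr']
    generalize TJ.sn (n0 + j + k) (x c) = u
    generalize Cc.d a' = y
    generalize Cc.d (a c hcr') = z
    have e : u + y + (u + z) = (u + u) + (y + z) := by abel
    rw [e, cc_self, zero_add]

end Vale.Agent.P263.K
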