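import Vale.Agent.P263.K.CofSp
import Vale.Agent.P263.K.Stmt
import Vale.Agent.P263.TJ.SqMu
import Vale.Agent.P263.TJ.MuInj

/-!
# P263, section K: the geometry of the Adams filtration argument

A family `A₀ : Sᵈ → Ω^{n0} S^{n0}` whose adjoint `F₀` is based homotopic to `f₃ f₂ f₁`, its
`j`-fold stabilization, and maps `γ : S^{d+n+k} → T`, `lam : T → S^{n+k}` (`n = n0 + j`) with
`lam γ ≃ F ∧ id`.
-/

open OnePoint Topology

namespace Vale.Agent.P263.K

open Vale.Agent.P263.S Vale.Agent.P263.E Vale.Agent.P263.TJ Vale.Agent.P263.G2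
  Vale.Agent.P263.T0

/-! ### iterated stabilization -/

/-- iterated stabilization -/
def stabN (n0 : ℕ) : (j : ℕ) → C(Om n0, Om (n0 + j))
  | 0 => ContinuousMap.id _
  | j + 1 => (stab (n0 + j)).comp (stabN n0 j)

theorem toQ_stabN (n0 j : ℕ) (x : Om n0) : toQ (n0 + j) (stabN n0 j x) = toQ n0 x := by
  induction j with
  | zero => rfl
  | succ j ih => exact (toQ_stab (n0 + j) (stabN n0 j x)).trans ih

theorem join2_zero {n0 : ℕ} (z : Sph n0) (w : Fin 0 → ℝ) : join2 z (w : Sph 0) = z := by
  induction z using OnePoint.rec with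
  | infty => exact join2_infty_left _
  | coe v =>
    rw [join2_coe]
    refine congrArg _ ?_
    funext i
    exact Fin.append_left v w i

theorem join2_snoc {n0 j : ℕ} (z : Sph n0) (w : Fin (j + 1) → ℝ) :
    join2 z (w : Sph (j + 1)) =
      toSmash (n0 + j) (join2 z ((Fin.init w : Fin j → ℝ) : Sph j),
        ((w (Fin.last j) : ℝ) : OnePoint ℝ)) := by
  induction z using OnePoint.rec with
  | infty => rw [join2_infty_left, join2_infty_left, toSmash_infty_left]
  | coe v =>
    rw [join2_coe, join2_coe, toSmash_coe]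
    have key : ∀ i : Fin (n0 + j + 1), (show Fin (n0 + (j + 1)) → ℝ from Fin.append v w) i =
        (Fin.snoc (Fin.append v (Fin.init w)) (w (Fin.last j)) : Fin (n0 + j + 1) → ℝ) i := by
      intro i
      refine Fin.lastCases ?_ (fun i => ?_) i
      · rw [Fin.snoc_last]
        exact Fin.append_right v w (Fin.last j)
      · rw [Fin.snoc_castSucc]
        refine Fin.addCases (fun i => ?_) (fun i => ?_) i
        · rw [Fin.append_left]
          exact Fin.append_left v w i
        · rw [Fin.append_right]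
          exact Fin.append_right v w i.castSucc
    exact congrArg (fun u : Fin (n0 + j + 1) → ℝ => (u : Sph (n0 + j + 1))) (funext key)

theorem stabN_join2 {n0 j : ℕ} (f : Om n0) (x : Sph n0) (y : Sph j) :
    stabN n0 j f (join2 x y) = join2 (f x) y := by
  induction y using OnePoint.rec with
  | infty => rw [join2_infty_right, join2_infty_right]; exact (stabN n0 j f).2
  | coe w =>
    induction j with
    | zero => rw [join2_zero, join2_zero]; rfl
    | succ j ih =>
      rw [join2_snoc, join2_snoc]
      refine (stabFun_toSmash (stabN n0 j f) (stabN n0 j f).2 _).trans ?_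
      exact congrArg (fun u => toSmash (n0 + j) (u, ((w (Fin.last j) : ℝ) : OnePoint ℝ)))
        (ih (Fin.init w))

/-- the representatives at the later stages -/
theorem Rep.eq_stabN {d n0 j : ℕ} {g : BMap d} {A₀ : C(Sph d, Om n0)} (h₀ : Rep g n0 A₀)
    {A : C(Sph d, Om (n0 + j))} (h : Rep g (n0 + j) A) (x : Sph d) :
    A x = stabN n0 j (A₀ x) := by
  apply toQ_injective (n0 + j)
  rw [toQ_stabN]
  exact (h.eq x).trans (h₀.eq x).symm

/-! ### the collapse of the cube -/

/-- the collapse of the cube -/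
noncomputable def cI (m : ℕ) : C(Fin m → unitInterval, Sph m) :=
  ⟨fun y => tup fun i => GB.loopU (y i), continuous_tup.comp
    (continuous_pi fun i => GB.loopU.continuous.comp (continuous_apply i))⟩

theorem cI_bd {m : ℕ} {y : Fin m → unitInterval} {i : Fin m} (h : y i = 0 ∨ y i = 1) :
    cI m y = ∞ := by
  refine tup_of_eq_infty (i := i) ?_
  rcases h with h | h
  · rw [h]; exact GB.loopE_zero
  · rw [h]; exact GB.loopE_one

theorem cI_append {a b : ℕ} (y : Fin (a + b) → unitInterval) :
    join2 (cI a fun i => y (Fin.castAdd b i)) (cI b fun i => y (Fin.natAdd a i)) =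
      cI (a + b) y := by
  refine (join2_tup _ _).trans (congrArg tup ?_)
  funext i
  refine Fin.addCases (fun i => ?_) (fun i => ?_) i
  · rw [Fin.append_left]
  · rw [Fin.append_right]

/-- the coordinates of a simplex of the cube -/
noncomputable def yC {m p : ℕ} (τ : Fin m → Op p 1) (t : Dl p) : Fin m → unitInterval :=
  fun i => chiI (τ i) t

theorem cxC_eq {m p : ℕ} (τ : Fin m → Op p 1) (t : Dl p) : cxC τ t = cI m (yC τ t) := rfl

/-! ### homotopies -/

theorem homotopicRel_comp {X Y Z : Type} [TopologicalSpace X] [TopologicalSpace Y]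
    [TopologicalSpace Z] {f f' : C(X, Y)} {S : Set X} (h : f.HomotopicRel f' S) (q : C(Z, X))
    {S' : Set Z} (hS : ∀ z ∈ S', q z ∈ S) : (f.comp q).HomotopicRel (f'.comp q) S' := by
  obtain ⟨H⟩ := h
  exact ⟨⟨H.toHomotopy.compContinuousMap q, fun t z hz => H.eq_fst t (hS z hz)⟩⟩

/-! ### the maps -/

variable {d n0 j k : ℕ}

/-- the boundary of `Sᵈ × cube` -/
def bdZ (d m : ℕ) : Set (Sph d × (Fin m → unitInterval)) :=
  {z | z.1 = ∞ ∨ ∃ i, z.2 i = 0 ∨ z.2 i = 1}

/-- `(x, y) ↦ (x ∧ y') ∧ y''` -/
noncomputable def qZ (d n k : ℕ) : C(Sph d × (Fin (n + k) → unitInterval), Sph (d + n + k)) where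
  toFun z := join2 (join2 z.1 (cI n fun i => z.2 (Fin.castAdd k i)))
    (cI k fun i => z.2 (Fin.natAdd n i))
  continuous_toFun := by
    refine continuous_join2.comp (Continuous.prodMk (continuous_join2.comp
      (continuous_fst.prodMk ((cI n).continuous.comp ?_))) ((cI k).continuous.comp ?_))
    · exact continuous_pi fun i => (continuous_apply _).comp continuous_snd
    · exact continuous_pi fun i => (continuous_apply _).comp continuous_snd

theorem qZ_bd {d n k : ℕ} {z : Sph d × (Fin (n + k) → unitInterval)} (h : z ∈ bdZ d (n + k)) :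
    qZ d n k z = ∞ := by
  show join2 (join2 z.1 _) _ = ∞
  rcases h with h | ⟨i, h⟩
  · rw [h, join2_infty_left, join2_infty_left]
  · revert h
    refine Fin.addCases (fun i h => ?_) (fun i h => ?_) i
    · rw [cI_bd (m := n) (i := i) h, join2_infty_right, join2_infty_left]
    · rw [cI_bd (m := k) (i := i) h, join2_infty_right]

/-- `(x, y) ↦ x ∧ y'`, the first `n0` coordinates -/
noncomputable def qlo (d n0 j k : ℕ) :
    C(Sph d × (Fin (n0 + j + k) → unitInterval), Sph (d + n0)) where
  toFun z := join2 z.1 (cI n0 fun i => z.2 (Fin.castAdd k (Fin.castAdd j i)))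
  continuous_toFun := by
    refine continuous_join2.comp (continuous_fst.prodMk ((cI n0).continuous.comp ?_))
    exact continuous_pi fun i => (continuous_apply _).comp continuous_snd

/-- the last `j + k` coordinates -/
def restIdx (n0 j k : ℕ) : Fin (j + k) → Fin (n0 + j + k) :=
  Fin.addCases (fun i => Fin.castAdd k (Fin.natAdd n0 i)) fun i => Fin.natAdd (n0 + j) i

theorem restIdx_left (i : Fin j) :
    restIdx n0 j k (Fin.castAdd k i) = Fin.castAdd k (Fin.natAdd n0 i) := Fin.addCases_left _

theorem restIdx_right (i : Fin k) :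
    restIdx n0 j k (Fin.natAdd j i) = Fin.natAdd (n0 + j) i := Fin.addCases_right _

/-- `(w, y) ↦ (f w ∧ y') ∧ y''` -/
noncomputable def t3 {W : Type} [TopologicalSpace W] (n0 j k : ℕ) (f : C(W, Sph n0)) :
    C(W × (Fin (j + k) → unitInterval), Sph (n0 + j + k)) where
  toFun z := join2 (join2 (f z.1) (cI j fun i => z.2 (Fin.castAdd k i)))
    (cI k fun i => z.2 (Fin.natAdd j i))
  continuous_toFun := by
    refine continuous_join2.comp (Continuous.prodMk (continuous_join2.comp
      ((f.continuous.comp continuous_fst).prodMk ((cI j).continuous.comp ?_)))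
      ((cI k).continuous.comp ?_))
    · exact continuous_pi fun i => (continuous_apply _).comp continuous_snd
    · exact continuous_pi fun i => (continuous_apply _).comp continuous_snd

theorem t3_left {W : Type} [TopologicalSpace W] {f : C(W, Sph n0)}
    {z : W × (Fin (j + k) → unitInterval)} (h : f z.1 = ∞) : t3 n0 j k f z = ∞ := by
  show join2 (join2 (f z.1) _) _ = ∞
  rw [h, join2_infty_left, join2_infty_left]

theorem t3_right {W : Type} [TopologicalSpace W] {f : C(W, Sph n0)}
    {z : W × (Fin (j + k) → unitInterval)} {i : Fin (j + k)} (h : z.2 i = 0 ∨ z.2 i = 1) :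
    t3 n0 j k f z = ∞ := by
  show join2 (join2 (f z.1) _) _ = ∞
  revert h
  refine Fin.addCases (fun i h => ?_) (fun i h => ?_) i
  · rw [cI_bd (m := j) (i := i) h, join2_infty_right, join2_infty_left]
  · rw [cI_bd (m := k) (i := i) h, join2_infty_right]

/-- the last coordinates -/
def restC (d n0 j k : ℕ) :
    C(Sph d × (Fin (n0 + j + k) → unitInterval), Fin (j + k) → unitInterval) :=
  ⟨fun z i => z.2 (restIdx n0 j k i), continuous_pi fun i =>
    (continuous_apply _).comp continuous_snd⟩

/-- `F` on the first coordinates, the identity on the others -/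
noncomputable def tZ (j k : ℕ) (F : C(Sph (d + n0), Sph n0)) :
    C(Sph d × (Fin (n0 + j + k) → unitInterval), Sph (n0 + j + k)) :=
  (t3 n0 j k F).comp ((qlo d n0 j k).prodMk (restC d n0 j k))

theorem tZ_apply (F : C(Sph (d + n0), Sph n0))
    (z : Sph d × (Fin (n0 + j + k) → unitInterval)) :
    tZ j k F z = join2 (join2 (F (qlo d n0 j k z))
      (cI j fun i => z.2 (Fin.castAdd k (Fin.natAdd n0 i))))
      (cI k fun i => z.2 (Fin.natAdd (n0 + j) i)) := by
  show join2 (join2 (F (qlo d n0 j k z)) (cI j fun i => z.2 (restIdx n0 j k (Fin.castAdd k i))))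
      (cI k fun i => z.2 (restIdx n0 j k (Fin.natAdd j i))) = _
  simp only [restIdx_left, restIdx_right]

theorem tZ_bd {F : C(Sph (d + n0), Sph n0)} (hF : F ∞ = ∞)
    {z : Sph d × (Fin (n0 + j + k) → unitInterval)} (h : z ∈ bdZ d (n0 + j + k)) :
    tZ j k F z = ∞ := by
  rw [tZ_apply]
  rcases h with h | ⟨i, h⟩
  · have h1 : qlo d n0 j k z = ∞ := by
      show join2 z.1 _ = ∞
      rw [h, join2_infty_left]
    rw [h1, hF, join2_infty_left, join2_infty_left]
  · revert h
    refine Fin.addCases (fun i => ?_) (fun i h => ?_) i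
    · refine Fin.addCases (fun i h => ?_) (fun i h => ?_) i
      · have h1 : qlo d n0 j k z = ∞ := by
          show join2 z.1 (cI n0 fun i => z.2 (Fin.castAdd k (Fin.castAdd j i))) = ∞
          rw [cI_bd (m := n0) (i := i) h, join2_infty_right]
        rw [h1, hF, join2_infty_left, join2_infty_left]
      · rw [cI_bd (m := j) (i := i) h, join2_infty_right, join2_infty_left]
    · rw [cI_bd (m := k) (i := i) h, join2_infty_right]

/-- homotopic maps -/
theorem tZ_homotopicRel (j k : ℕ) {F F' : C(Sph (d + n0), Sph n0)} (hF : F ∞ = ∞)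
    (h : F.HomotopicRel F' {∞}) :
    (tZ j k F).HomotopicRel (tZ j k F') (bdZ d (n0 + j + k)) := by
  obtain ⟨H⟩ := h
  have hbd : ∀ (t : unitInterval), H (t, ∞) = ∞ := fun t => (H.eq_fst t rfl).trans hF
  refine ⟨⟨⟨⟨fun p => tZ j k (H.toHomotopy.curry p.1) p.2, ?_⟩, ?_, ?_⟩, ?_⟩⟩
  · have h1 : (fun p : unitInterval × (Sph d × (Fin (n0 + j + k) → unitInterval)) =>
        tZ j k (H.toHomotopy.curry p.1) p.2) = fun p =>
        t3 n0 j k (W := unitInterval × Sph (d + n0)) H.toContinuousMap
          ((p.1, qlo d n0 j k p.2), restC d n0 j k p.2) := rfl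
    rw [h1]
    exact (t3 n0 j k (W := unitInterval × Sph (d + n0)) H.toContinuousMap).continuous.comp
      (Continuous.prodMk (continuous_fst.prodMk ((qlo d n0 j k).continuous.comp continuous_snd))
        ((restC d n0 j k).continuous.comp continuous_snd))
  · intro z
    have h1 : H.toHomotopy.curry 0 = F := H.toHomotopy.curry_zero
    show tZ j k (H.toHomotopy.curry 0) z = _
    rw [h1]
  · intro z
    have h1 : H.toHomotopy.curry 1 = F' := H.toHomotopy.curry_one
    show tZ j k (H.toHomotopy.curry 1) z = _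
    rw [h1]
  · intro t z hz
    show tZ j k (H.toHomotopy.curry t) z = tZ j k F z
    rw [tZ_bd hF hz]
    exact tZ_bd (F := H.toHomotopy.curry t) (hbd t) hz

/-- the suspension of the adjoint of the stabilized family -/
theorem sF_qZ {A₀ : C(Sph d, Om n0)} (hA₀ : A₀ ∞ = Om.const n0) {A : C(Sph d, Om (n0 + j))}
    (hA : A ∞ = Om.const (n0 + j)) (hAA : ∀ x, A x = stabN n0 j (A₀ x))
    {sF : C(Sph (d + (n0 + j) + k), Sph (n0 + j + k))}
    (hsF : ∀ u w, sF (join2 u w) = join2 (adjS A hA u) w) :
    sF.comp (qZ d (n0 + j) k) = tZ j k (adjS A₀ hA₀) := by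
  apply ContinuousMap.ext
  intro z
  rw [tZ_apply]
  show sF (join2 (join2 z.1 _) _) = _
  rw [hsF, adjS_join2, hAA, ← cI_append (a := n0) (b := j), stabN_join2]
  congr 2
  exact (adjS_join2 A₀ hA₀ _ _).symm

end Vale.Agent.P263.K
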