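import Vale.Agent.P263.K.AF3Geo

/-!
# P263, section K: the maps of pairs of simplicial sets of the Adams filtration argument
-/

open OnePoint Topology

namespace Vale.Agent.P263.K

open Vale.Agent.P263.S Vale.Agent.P263.E Vale.Agent.P263.TJ Vale.Agent.P263.G2
  Vale.Agent.P263.T0

/-! ### products with the cube -/

section zS

variable (X : Type) [TopologicalSpace X] (m : ℕ)

/-- a simplex of `sing X × cube` as a simplex of the space `X × cube` -/
noncomputable def zC {p : ℕ} (z : ((sing X).prod (SN m)).obj p) :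
    C(Dl p, X × (Fin m → unitInterval)) :=
  (toC z.1).prodMk ⟨fun t i => chiI (z.2 i) t, continuous_pi fun i => (chiI (z.2 i)).continuous⟩

/-- `sing X × cube → sing (X × cube)` -/
noncomputable def zS : SS.Map ((sing X).prod (SN m)) (sing (X × (Fin m → unitInterval))) :=
  ⟨fun z => ofC (zC X m z), fun f z => by
    apply ContinuousMap.ext
    intro t
    refine Prod.ext rfl (funext fun i => ?_)
    exact DFunLike.congr_fun (chiI_comp (z.2 i) f) t⟩

variable {X m}

theorem zC_apply {p : ℕ} (z : ((sing X).prod (SN m)).obj p) (t : Dl p) :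
    zC X m z t = (toC z.1 t, fun i => chiI (z.2 i) t) := rfl

end zS

/-- reindexing of the cube -/
def reN {m n : ℕ} (e : Fin m → Fin n) : SS.Map (SN n) (SN m) := ⟨fun τ i => τ (e i), fun _ _ => rfl⟩

/-- `A × cube ∪ X × ends` -/
def rb {X : SS} (A : Sb X) (m : ℕ) : Sb (X.prod (SN m)) :=
  (bdX X m).union (A.comap (SS.fst X (SN m)))

variable {d n0 j k : ℕ}

theorem zC_bd {p : ℕ} {z : ((sing (Sph d)).prod (SN k)).obj p} (h : (rb (bs d) k).mem z)
    (t : Dl p) : zC (Sph d) k z t ∈ bdZ d k := by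
  rcases h with ⟨i, h⟩ | h
  · refine Or.inr ⟨i, ?_⟩
    rcases h with h | h
    · refine Or.inl ?_
      show chiI (z.2 i) t = 0
      rw [show z.2 i = c0 p from h, chiI_c0]
    · refine Or.inr ?_
      show chiI (z.2 i) t = 1
      rw [show z.2 i = c1 p from h, chiI_c1]
  · exact Or.inl (h t)

/-- the space `U` -/
noncomputable abbrev sU (d m : ℕ) : SS := (sing (Sph d)).prod (SN m)

/-- `x ∧ (the first coordinates)` -/
noncomputable def sLo (d n0 j k : ℕ) : SS.Map (sU d (n0 + j + k)) (sing (Sph (d + n0))) :=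
  (singMap (qlo d n0 j k)).comp (zS (Sph d) (n0 + j + k))

/-- the map `(x, τ) ↦ (x ∧ τ', τ'')` -/
noncomputable def psi (d n0 j k : ℕ) :
    SS.Map (sU d (n0 + j + k)) ((sing (Sph (d + n0))).prod (SN (j + k))) :=
  SS.pair (sLo d n0 j k) ((reN (restIdx n0 j k)).comp (SS.snd _ _))

theorem exists_idx (i : Fin (n0 + j + k)) :
    (∃ i' : Fin n0, i = Fin.castAdd k (Fin.castAdd j i')) ∨
      ∃ i' : Fin (j + k), i = restIdx n0 j k i' := by
  refine Fin.addCases (fun i => ?_) (fun i => ?_) i
  · refine Fin.addCases (fun i => ?_) (fun i => ?_) i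
    · exact Or.inl ⟨i, rfl⟩
    · exact Or.inr ⟨Fin.castAdd k i, (restIdx_left i).symm⟩
  · exact Or.inr ⟨Fin.natAdd j i, (restIdx_right i).symm⟩

theorem psi_mem {p : ℕ} {z : (sU d (n0 + j + k)).obj p} (h : (rb (bs d) (n0 + j + k)).mem z) :
    (rb (bs (d + n0)) (j + k)).mem ((psi d n0 j k).app z) := by
  rcases h with ⟨i, h⟩ | h
  · rcases exists_idx i with ⟨i', rfl⟩ | ⟨i', rfl⟩
    · refine Or.inr fun t => ?_
      show join2 (toC z.1 t) (cI n0 fun i => chiI (z.2 (Fin.castAdd k (Fin.castAdd j i))) t) = ∞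
      have h1 : cI n0 (fun i => chiI (z.2 (Fin.castAdd k (Fin.castAdd j i))) t) = ∞ := by
        refine cI_bd (i := i') ?_
        rcases h with h | h
        · refine Or.inl ?_
          show chiI (z.2 (Fin.castAdd k (Fin.castAdd j i'))) t = 0
          rw [show z.2 (Fin.castAdd k (Fin.castAdd j i')) = c0 p from h, chiI_c0]
        · refine Or.inr ?_
          show chiI (z.2 (Fin.castAdd k (Fin.castAdd j i'))) t = 1
          rw [show z.2 (Fin.castAdd k (Fin.castAdd j i')) = c1 p from h, chiI_c1]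
      rw [h1, join2_infty_right]
    · exact Or.inl ⟨i', h⟩
  · refine Or.inr fun t => ?_
    show join2 (toC z.1 t) _ = ∞
    rw [show toC z.1 t = ∞ from h t, join2_infty_left]

/-- `F` on `sing W × cube` -/
noncomputable def s3 {W : Type} [TopologicalSpace W] (n0 j k : ℕ) (f : C(W, Sph n0)) :
    SS.Map ((sing W).prod (SN (j + k))) (sing (Sph (n0 + j + k))) :=
  (singMap (t3 n0 j k f)).comp (zS W (j + k))

theorem s3_mem {W : Type} [TopologicalSpace W] {w : W} {f : C(W, Sph n0)} (hf : f w = ∞) {p : ℕ}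
    {z : ((sing W).prod (SN (j + k))).obj p} (h : (rb (cstAt w) (j + k)).mem z) :
    (bs (n0 + j + k)).mem ((s3 n0 j k f).app z) := by
  intro t
  rcases h with ⟨i, h⟩ | h
  · refine t3_right (z := zC W (j + k) z t) (i := i) ?_
    rcases h with h | h
    · refine Or.inl ?_
      show chiI (z.2 i) t = 0
      rw [show z.2 i = c0 p from h, chiI_c0]
    · refine Or.inr ?_
      show chiI (z.2 i) t = 1
      rw [show z.2 i = c1 p from h, chiI_c1]
  · refine t3_left (z := zC W (j + k) z t) ?_
    show f (toC z.1 t) = ∞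
    rw [show toC z.1 t = w from h t, hf]

/-- a pointed map times the cube -/
theorem timesN_mem {X Y : Type} [TopologicalSpace X] [TopologicalSpace Y] {x : X} {y : Y}
    {f : C(X, Y)} (hf : f x = y) (m : ℕ) {p : ℕ} {z : ((sing X).prod (SN m)).obj p}
    (h : (rb (cstAt x) m).mem z) : (rb (cstAt y) m).mem ((timesN (singMap f) m).app z) := by
  rcases h with h | h
  · exact Or.inl h
  · refine Or.inr fun t => ?_
    show f (toC z.1 t) = y
    rw [show toC z.1 t = x from h t, hf]

/-! ### the homotopy -/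

/-- a homotopy of maps on `Sᵈ × cube`, relative to the boundary, gives a homotopy of simplicial
sets -/
noncomputable def cylMap {m n : ℕ} {f f' : C(Sph d × (Fin m → unitInterval), Sph n)}
    (H : f.HomotopyRel f' (bdZ d m)) : SS.Map (cylS (sU d m)) (sing (Sph n)) where
  app {p} z := ofC (H.toContinuousMap.comp ((chiI (p := p) z.2).prodMk (zC (Sph d) m z.1)))
  nat {p q} g z := by
    apply ContinuousMap.ext
    intro t
    refine congrArg (H : _ → Sph n) (Prod.ext ?_ ?_)
    · exact DFunLike.congr_fun (chiI_comp (q := q) z.2 g) t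
    · exact congrArg (fun u : C(Dl p, Sph d × (Fin m → unitInterval)) => u t)
        ((zS (Sph d) m).nat g z.1)

theorem cylMap_zero {m n : ℕ} {f f' : C(Sph d × (Fin m → unitInterval), Sph n)}
    (H : f.HomotopyRel f' (bdZ d m)) {p : ℕ} (x : (sU d m).obj p) :
    (cylMap H).app (x, c0 p) = ((singMap f).comp (zS (Sph d) m)).app x := by
  apply ContinuousMap.ext
  intro t
  show H (chiI (c0 p) t, zC (Sph d) m x t) = f (zC (Sph d) m x t)
  rw [chiI_c0]
  exact H.apply_zero _

theorem cylMap_one {m n : ℕ} {f f' : C(Sph d × (Fin m → unitInterval), Sph n)}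
    (H : f.HomotopyRel f' (bdZ d m)) {p : ℕ} (x : (sU d m).obj p) :
    (cylMap H).app (x, c1 p) = ((singMap f').comp (zS (Sph d) m)).app x := by
  apply ContinuousMap.ext
  intro t
  show H (chiI (c1 p) t, zC (Sph d) m x t) = f' (zC (Sph d) m x t)
  rw [chiI_c1]
  exact H.apply_one _

theorem cylMap_mem {m n : ℕ} {f f' : C(Sph d × (Fin m → unitInterval), Sph n)}
    (H : f.HomotopyRel f' (bdZ d m)) (hf : ∀ z ∈ bdZ d m, f z = ∞) {p : ℕ}
    (z : (cylS (sU d m)).obj p) (h : (rb (bs d) m).mem z.1) : (bs n).mem ((cylMap H).app z) := by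
  intro t
  show H (chiI (p := p) z.2 t, zC (Sph d) m z.1 t) = ∞
  rw [H.eq_fst _ (zC_bd h t)]
  exact hf _ (zC_bd h t)

end Vale.Agent.P263.K
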