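import Vale.Agent.P263.K.AF3Top

/-!
# P263, section K: an element of Adams filtration three, at a later stage

`g` of Adams filtration at least three with a representative `A₀ : Sᵈ → Ωⁿ⁰ Sⁿ⁰`, and a
representative `A : Sᵈ → Ωⁿ Sⁿ` at the stage `n = n0 + j`. If the suspended adjoint of `A` factors as
`lam γ` through `(ℝᴷ × PV V)⁺`, `K = n + k`, where the functional squares of `lam` are the classes
`s_K w^i`, then the functional squares of `γ` on the class `s_K w^c` cannot all be nonzero.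

* `gamP γ hγ`, `lamQ lam hlam` : the maps of pairs.
* `L2Ne γ i c` : the functional squares of `γ` on a cocycle in the class `s_K w^c` are all nonzero.
* `af3_contra` : the contradiction.
-/

noncomputable section

open OnePoint Topology

namespace Vale.Agent.P263.K

open Vale.Agent.P263.S Vale.Agent.P263.E Vale.Agent.P263.TJ Vale.Agent.P263.G2
  Vale.Agent.P263.T0 Vale.Agent.P263.Cof

section maps

variable {d n k K : ℕ} {P : Type} [TopologicalSpace P]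

/-- `γ : S^{d+n+k} → (ℝᴷ × P)⁺` on `Sᵈ × cube` -/
def gamP (γ : C(Sph (d + n + k), OnePoint ((Fin (n + k) → ℝ) × P))) (hγ : γ ∞ = ∞) :
    PMap (rb (bs d) (n + k)) (bsT (n + k) P) where
  map := (singMap γ).comp (KJ.m3 d n k)
  mem {p} z h t := by
    show γ (qZ d n k (zC (Sph d) (n + k) z t)) = ∞
    rw [qZ_bd (zC_bd h t), hγ]

/-- `lam : (ℝᴷ × P)⁺ → Sᴷ` -/
def lamQ (lam : C(OnePoint ((Fin K → ℝ) × P), Sph K)) (hlam : lam ∞ = ∞) :
    PMap (bsT K P) (bs K) where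
  map := singMap lam
  mem {p} z h t := by
    show lam (toC z t) = ∞
    rw [show toC z t = ∞ from h t, hlam]

end maps

variable {V : Type} [NormedAddCommGroup V] [InnerProductSpace ℝ V] [FiniteDimensional ℝ V]

/-- The functional squares `Sq^{c+1}` of `γ` on some cocycle `bb` of degree `K + c`, `K = i + 1`, in
the class `s_K w^c` are all nonzero. -/
def L2Ne {U : SS} {U₀ : Sb U} {K : ℕ} (γ : PMap U₀ (bsT K (KJ.PV V))) (i c : ℕ) : Prop :=
  ∃ bb cc : Cc (sing (OnePoint ((Fin K → ℝ) × KJ.PV V))),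
    Vn (bsT K (KJ.PV V)) bb ∧ Vn (bsT K (KJ.PV V)) cc ∧ Cc.d bb = 0 ∧
    Cc.IsDeg (i + 1 + c) bb ∧ Cc.IsDeg (i + 1 + 2 * c) cc ∧ Cc.cup (i + 1) bb bb = Cc.d cc ∧
    (∃ a, Vn (bdX (sing (KJ.PV V)) K) a ∧
      Cc.pull (muT K (KJ.PV V)) bb = TJ.sn K (KJ.Cc.pw (KJ.wP V) c) + Cc.d a) ∧
    ∀ E : CupC.FSqD γ.hom i, Cc.val E.b = bb → Cc.val E.c = cc → ¬ (Cc.rel U₀).Coh E.val 0

/-- **The contradiction.** -/
theorem af3_contra {d n0 j k : ℕ} (hd : 0 < d) {i c s d' : ℕ} (hi : i + 1 = n0 + j + k)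
    (hdc : d = 2 * c) (hs : 1 ≤ s) (hc : c + 1 = 2 ^ s) (hcr : 2 * c ≤ i)
    (hV : Module.finrank ℝ V = d' + 1) (hcd : 2 * c < d')
    {g : BMap d} {A₀ : C(Sph d, Om n0)} (h₀ : Rep g n0 A₀)
    (hF : Factors3 (∞ : Sph (d + n0)) (∞ : Sph n0) (adjS A₀ h₀.base))
    {A : C(Sph d, Om (n0 + j))} (h : Rep g (n0 + j) A)
    (γ : C(Sph (d + (n0 + j) + k), OnePoint ((Fin (n0 + j + k) → ℝ) × KJ.PV V)))
    (hγ : γ ∞ = ∞)
    (lam : C(OnePoint ((Fin (n0 + j + k) → ℝ) × KJ.PV V), Sph (n0 + j + k)))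
    (hlam : lam ∞ = ∞)
    (sF : C(Sph (d + (n0 + j) + k), Sph (n0 + j + k)))
    (hsF : ∀ u w, sF (join2 u w) = join2 (adjS A h.base u) w)
    (kp : (lam.comp γ).HomotopicRel sF {∞})
    (hfs : FSOK (n0 + j + k) (KJ.PV V) (fun i => KJ.Cc.pw (KJ.wP V) i) (lamQ lam hlam) i)
    (L2 : L2Ne (V := V) (gamP γ hγ) i c) : False := by
  obtain ⟨W₁, W₂, t₁, t₂, w₁, w₂, f₁, f₂, f₃, z₁, z₂, z₃, hf⟩ := hF
  let D : Dat d n0 j k (KJ.PV V) :=
    { A₀ := A₀, hA₀ := h₀.base, W₁ := W₁, W₂ := W₂, t₁ := t₁, t₂ := t₂, w₁ := w₁, w₂ := w₂,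
      f₁ := f₁, f₂ := f₂, f₃ := f₃, z₁ := z₁, z₂ := z₂, z₃ := z₃, hf := hf, A := A,
      hA := h.base, hAA := h₀.eq_stabN h, γ := γ, hγ := hγ, lam := lam, hlam := hlam, sF := sF,
      hsF := hsF, kp := kp }
  obtain ⟨bb, cc, vb, vc, db, hbb, hcc, hcup, hv, hL⟩ := L2
  exact D.contra3 hd hi hdc hs hc hcr hV hcd hfs vb vc db hbb hcc hcup hv hL

end Vale.Agent.P263.K
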