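import Vale.Agent.P263.K.AFVan
import Vale.Agent.P263.K.HSI

/-!
# P263, section K (helper659): the relative cohomology of `OnePoint (ℝᴷ × P)`

`muT_inj`, `hG_T`, `hinst_T` : vanishing below `K` and instability; `lam_zero_of` : a map to the
sphere which kills the fundamental class is zero on all classes of degree `K`.
-/

noncomputable section

namespace Vale.Agent.P263.K

open Finset
open Vale.Agent.P263.S Vale.Agent.P263.E Vale.Agent.P263.H83 Vale.Agent.P263.G2
  Vale.Agent.P263.TJ Cof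

theorem add_two_eq {M : Type} [AddCommGroup M] [Module (ZMod 2) M] {a b : M} (h : a + b = 0) :
    a = b := by
  have h2 : b + b = 0 := by
    have e : (2 : ZMod 2) • b = b + b := two_smul _ b
    have e0 : (2 : ZMod 2) = 0 := rfl
    rw [← e, e0, zero_smul]
  exact add_right_cancel (h.trans h2.symm)

section groups

variable {X Y : SS}

/-- a relative isomorphism is injective on the groups -/
theorem RelIso.H_inj {f : SS.Map X Y} {A : Sb X} {B : Sb Y} (h : RelIso f A B) {m : ℕ}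
    (x : (relF B).H m) (hx : (relPull f A B h.map).H m x = 0) : x = 0 := by
  obtain ⟨u, hB, hd, hm, rfl⟩ := exists_rcl B x
  have hA' : Vn A (Cc.pull f u) := h.vn hB
  have hd' : Cc.d (Cc.pull f u) = 0 := by rw [← pull_d, hd, pull_zero]
  rw [relPull_rcl f A B h.map m hB hd hA' hd', rcl_eq_zero_iff A (hm.pull f)] at hx
  rw [rcl_eq_zero_iff B hm]
  exact h.inj u hB hd hx

/-- relative cohomology of `X × cube` below the dimension of the cube -/
theorem bdX_low {N m : ℕ} (hmN : m < N) (x : (relF (bdX X N)).H m) : x = 0 := by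
  obtain ⟨w, hw, hd, hm, rfl⟩ := exists_rcl _ x
  rw [rcl_eq_zero_iff _ hm]
  have e : DstN N w = 0 := by
    funext p
    exact DstN_degree N (by
      funext x
      exact hm (p + N) (by omega) x)
  exact DstN_exact N (a := 0) hw hd (by rw [e, d_zero])

/-- relative classes of `X × cube` are suspensions -/
theorem bdX_exists_sn {N q : ℕ} (x : (relF (bdX X N)).H (N + q)) :
    ∃ (u : Cc X) (_ : Cc.IsDeg q u) (_ : Cc.d u = 0) (hd' : Cc.d (TJ.sn N u) = 0),
      x = rcl (bdX X N) (N + q) (TJ.sn N u) (Vn_sn N u) hd' := by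
  obtain ⟨w, hw, hd, hm, rfl⟩ := exists_rcl _ x
  have hd1 : Cc.d (DstN N w) = 0 := by rw [← DstN_d hw, hd, DstN_zero]
  have hd2 : Cc.d (TJ.sn N (DstN N w)) = 0 := by rw [d_sn, hd1, sn_zero']
  have hq : Cc.IsDeg q (DstN N w) := isDeg_DstN (by rw [add_comm]; exact hm)
  refine ⟨DstN N w, hq, hd1, hd2, ?_⟩
  obtain ⟨w', hw', e⟩ := DstN_retract N hw hd
  have hs : Cc.IsDeg (N + q) (TJ.sn N (DstN N w)) := by
    rw [add_comm]
    exact isDeg_sn N hq
  have hv : Vn (bdX X N) (w + TJ.sn N (DstN N w)) := hw.add (Vn_sn N _)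
  have hdv : Cc.d (w + TJ.sn N (DstN N w)) = 0 := by rw [d_add, hd, hd2, add_zero]
  have h0 : rcl (bdX X N) (N + q) (w + TJ.sn N (DstN N w)) hv hdv = 0 := by
    rw [rcl_eq_zero_iff _ (hm.add hs)]
    refine ⟨w', hw', ?_⟩
    funext p x
    have h1 := congrFun (congrFun e p) x
    have h2 : w p x = TJ.sn N (DstN N w) p x + Cc.d w' p x := h1
    show Cc.d w' p x = w p x + TJ.sn N (DstN N w) p x
    rw [h2, add_comm (TJ.sn N (DstN N w) p x), add_assoc, CharTwo.add_self_eq_zero, add_zero]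
  rw [rcl_add (bdX X N) (N + q) hw hd (Vn_sn N _) hd2 hv hdv] at h0
  exact add_two_eq h0

/-- instability for `X × cube` -/
theorem bdX_inst {N q a m : ℕ} (x : (relF (bdX X N)).H (N + q)) (hqa : q < a)
    (hm : m = N + q + a) : (relF (bdX X N)).sq (N + q) m x = 0 := by
  rcases Nat.lt_or_ge (N + q + (N + q)) m with h | h
  · exact (relF (bdX X N)).sq_gt _ _ x h
  obtain ⟨u, hu, hdu, hd', rfl⟩ := bdX_exists_sn x
  have hs : Cc.IsDeg (N + q) (TJ.sn N u) := by
    rw [add_comm]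
    exact isDeg_sn N hu
  have h0 : Cc.cup (N + q + (N + q) + 1 - m) (TJ.sn N u) (TJ.sn N u) = 0 :=
    cup_sn_of_le N _ (by omega) u u
  rw [sq_rcl (bdX X N) (J := N + q + (N + q) + 1 - m) hs (Vn_sn N u) hd' (by omega)
    (by rw [h0]; exact Vn.zero) (by rw [h0, d_zero])]
  rw [rcl_eq_zero_iff _ (by rw [h0]; exact fun _ _ _ => rfl)]
  exact ⟨0, Vn.zero, by rw [h0, d_zero]⟩

end groups

section target

variable {K : ℕ} {P : Type} [TopologicalSpace P] [CompactSpace P] [T2Space P]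

/-- vanishing below `K` -/
theorem hG_T {r : ℕ} (hr : r < K) (x : (relF (bsT K P)).H r) : x = 0 :=
  (relIso_muT K P).H_inj x (bdX_low hr _)

/-- instability -/
theorem hinst_T (q a m : ℕ) (x : (relF (bsT K P)).H (K + q)) (hqa : q < a)
    (hm : m = K + q + a) : (relF (bsT K P)).sq (K + q) m x = 0 := by
  apply (relIso_muT K P).H_inj
  rw [AHom.sq]
  exact bdX_inst _ hqa hm

/-- the same for `K = r + 1` -/
theorem hinst_T' {r : ℕ} (hr : r + 1 = K) (q a m : ℕ) (x : (relF (bsT K P)).H (r + 1 + q))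
    (hqa : q < a) (hm : m = r + 1 + q + a) : (relF (bsT K P)).sq (r + 1 + q) m x = 0 := by
  subst hr
  exact hinst_T q a m x hqa hm

end target

section lam

variable {X : SS} {A : Sb X}

/-- two non-zero classes of degree `K` of the sphere agree -/
theorem sph_class {K : ℕ} (hK : 0 < K) {b : Cc (sing (T0.Sph K))} (hb : Vn (bs K) b)
    (hd : Cc.d b = 0) (hdeg : Cc.IsDeg K b) (hne : ¬ ∃ a, Vn (bs K) a ∧ Cc.d a = b)
    (x : (relF (bs K)).H K) : x = 0 ∨ x = rcl (bs K) K b hb hd := by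
  obtain ⟨w, hw, hdw, hm, rfl⟩ := exists_rcl _ x
  by_cases h : ∃ a, Vn (bs K) a ∧ Cc.d a = w
  · exact Or.inl ((rcl_eq_zero_iff _ hm hw hdw).2 h)
  · right
    have n1 : ¬ (Cc.rel (bs K)).Coh (Cc.mkRel (bs K) b hb) 0 := by
      rintro ⟨a, ha⟩
      rw [add_zero] at ha
      exact hne ⟨Cc.val a, Cc.vn_val a, (congrArg Cc.val ha).symm⟩
    have n2 : ¬ (Cc.rel (bs K)).Coh (Cc.mkRel (bs K) w hw) 0 := by
      rintro ⟨a, ha⟩
      rw [add_zero] at ha
      exact h ⟨Cc.val a, Cc.vn_val a, (congrArg Cc.val ha).symm⟩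
    obtain ⟨a, ha⟩ := SphCc.rel_coh_of_ne hK (z := Cc.mkRel (bs K) w hw)
      (z' := Cc.mkRel (bs K) b hb) hm (Cc.rel_ext hdw) hdeg (Cc.rel_ext hd) n2 n1
    have ha' : w + b = Cc.d (Cc.val a) := congrArg Cc.val ha
    have hv : Vn (bs K) (w + b) := hw.add hb
    have hdv : Cc.d (w + b) = 0 := by rw [d_add, hdw, hd, add_zero]
    have h0 : rcl (bs K) K (w + b) hv hdv = 0 :=
      (rcl_eq_zero_iff _ (hm.add hdeg) hv hdv).2 ⟨Cc.val a, Cc.vn_val a, ha'.symm⟩
    rw [rcl_add (bs K) K hw hdw hb hd hv hdv] at h0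
    exact add_two_eq h0

/-- a map to the sphere which kills the fundamental class -/
theorem lam_zero_of {K : ℕ} (lam : PMap A (bs K)) (hK : 0 < K) {b : Cc (sing (T0.Sph K))}
    (hb : Vn (bs K) b) (hd : Cc.d b = 0) (hdeg : Cc.IsDeg K b)
    (hne : ¬ ∃ a, Vn (bs K) a ∧ Cc.d a = b)
    (he : ∃ e, Vn A e ∧ Cc.d e = Cc.pull lam.map b) {r : ℕ} (hr : r + 1 = K)
    (x : (relF (bs K)).H (r + 1)) : lam.pull.H (r + 1) x = 0 := by
  subst hr
  rcases sph_class hK hb hd hdeg hne x with rfl | rfl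
  · exact map_zero _
  · have hA' : Vn A (Cc.pull lam.map b) := fun p x hx => hb p _ (lam.mem x hx)
    have hd' : Cc.d (Cc.pull lam.map b) = 0 := by rw [← pull_d, hd, pull_zero]
    rw [PMap.pull, relPull_rcl lam.map A (bs (r + 1)) lam.mem (r + 1) hb hd hA' hd',
      rcl_eq_zero_iff A (hdeg.pull lam.map)]
    exact he

end lam

end Vale.Agent.P263.K
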