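import Vale.Agent.P263.K.AF3Fin
import Vale.Agent.P263.K.AFTgt
import Vale.Agent.P263.KJ.Ind

/-!
# P263, section K: the contradiction for the target `(ℝᴷ × PV V)⁺`
-/

noncomputable section

open OnePoint Topology

namespace Vale.Agent.P263.K

open Vale.Agent.P263.S Vale.Agent.P263.E Vale.Agent.P263.TJ Vale.Agent.P263.G2
  Vale.Agent.P263.T0 Vale.Agent.P263.Cof

variable {d n0 j k : ℕ} {V : Type} [NormedAddCommGroup V] [InnerProductSpace ℝ V]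
  [FiniteDimensional ℝ V]

private theorem isDeg_of_eq' {X : SS} {m n : ℕ} {c : Cc X} (h : m = n) (hc : Cc.IsDeg m c) :
    Cc.IsDeg n c := h ▸ hc

/-- **The contradiction** for the target `(ℝᴷ × PV V)⁺`. -/
theorem Dat.contra3 (D : Dat d n0 j k (KJ.PV V)) (hd : 0 < d) {r c s d' : ℕ}
    (hr : r + 1 = n0 + j + k) (hdc : d = 2 * c) (hs : 1 ≤ s) (hc : c + 1 = 2 ^ s)
    (hcr : 2 * c ≤ r) (hV : Module.finrank ℝ V = d' + 1) (hcd : 2 * c < d')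
    (hlam : FSOK (n0 + j + k) (KJ.PV V) (fun i => KJ.Cc.pw (KJ.wP V) i) D.lamP r)
    {bb cc : Cc (sing (OnePoint ((Fin (n0 + j + k) → ℝ) × KJ.PV V)))}
    (vb : Vn (bsT (n0 + j + k) (KJ.PV V)) bb) (vc : Vn (bsT (n0 + j + k) (KJ.PV V)) cc)
    (db : Cc.d bb = 0) (hbb : Cc.IsDeg (r + 1 + c) bb) (hcc : Cc.IsDeg (r + 1 + 2 * c) cc)
    (hcup : Cc.cup (r + 1) bb bb = Cc.d cc)
    (hv : ∃ a, Vn (bdX (sing (KJ.PV V)) (n0 + j + k)) a ∧
      Cc.pull (muT (n0 + j + k) (KJ.PV V)) bb =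
        TJ.sn (n0 + j + k) (KJ.Cc.pw (KJ.wP V) c) + Cc.d a)
    (L2 : ∀ E : CupC.FSqD D.gam.hom r, Cc.val E.b = bb → Cc.val E.c = cc →
      ¬ (Cc.rel (rb (bs d) (n0 + j + k))).Coh E.val 0) : False := by
  have hc1 : 1 ≤ c := by
    have h2 : 2 ^ 1 ≤ 2 ^ s := Nat.pow_le_pow_right (by norm_num) hs
    omega
  refine D.contra2 hd hr hdc hs hc hcr (hG_T (by omega))
    (fun q a m x hqa hm => hinst_T' hr q a m x hqa hm) (x := fun i => KJ.Cc.pw (KJ.wP V) i) hlam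
    vb vc db hbb hcc hcup hv (fun y hy hdy hyd => ?_) L2
  refine KJ.ind_null' hV (by omega) (c := c) (by omega) D.gam.map D.gam.mem (fun z hz hz0 hdz => ?_)
    (b := bb) (isDeg_of_eq' (by omega) hbb) vb db hv hy hdy (isDeg_of_eq' (by omega) hyd)
  obtain ⟨e, h1, h2, h3⟩ := sphSN_van (N := n0 + j + k) hd
    (fun p y hy => hz0 p y (Or.inl hy)) (fun p y hy => hz0 p y (Or.inr hy)) hdz hz (by omega)
  exact ⟨e, rb_elim h1 h2, h3⟩

end Vale.Agent.P263.K
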