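import Vale.Agent.P263.K.AF3Stage
import Vale.Agent.P263.KJ.Bridge

/-!
# P263, section K: `g` is not of Adams filtration at least three

* `GamNe A hA c` : the functional squares `Sq^{c+1}` of the literal `γ` of the adjoint of `A` on the
  class `s_K w^c` are all nonzero (level L2(b)).
* `LamOK n` : the functional squares of the literal Kahn-Priddy map `lamS n`.
* `not_AFge3` : if `GamNe` holds for the representatives at all large stages, then `g` is not of
  Adams filtration at least three.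
-/

noncomputable section

open OnePoint Topology

namespace Vale.Agent.P263.K

open Vale.Agent.P263.S Vale.Agent.P263.E Vale.Agent.P263.TJ Vale.Agent.P263.G2
  Vale.Agent.P263.T0 Vale.Agent.P263.Cof

/-- the literal `γ` of the adjoint of `A`, on `Sᵈ × cube` -/
def gamA {d n : ℕ} (A : C(Sph d, Om n)) (hA : A ∞ = Om.const n) :
    PMap (rb (bs d) (n + KJ.kk n)) (bsT (n + KJ.kk n) (KJ.PV (KJ.VV n))) :=
  gamP (KJ.gamS (adjS A hA) (adjS_infty A hA)) (KJ.gamS_infty _ _)

/-- the literal Kahn-Priddy map -/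
def lamA (n : ℕ) : PMap (bsT (n + KJ.kk n) (KJ.PV (KJ.VV n))) (bs (n + KJ.kk n)) :=
  lamQ (KJ.lamS n) (KJ.lamS_infty n)

/-- level L2(b) : the functional squares of the literal `γ` are nonzero -/
def GamNe {d n : ℕ} (A : C(Sph d, Om n)) (hA : A ∞ = Om.const n) (c : ℕ) : Prop :=
  ∃ i, i + 1 = n + KJ.kk n ∧ L2Ne (V := KJ.VV n) (gamA A hA) i c

/-- the functional squares of the literal Kahn-Priddy map -/
def LamOK (n : ℕ) : Prop :=
  ∀ i, i + 1 = n + KJ.kk n →
    FSOK (n + KJ.kk n) (KJ.PV (KJ.VV n)) (fun q => KJ.Cc.pw (KJ.wP (KJ.VV n)) q) (lamA n) i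

/-- **`g` is not of Adams filtration at least three.** -/
theorem not_AFge3_of {d c s : ℕ} (hd : 0 < d) (hdc : d = 2 * c) (hs : 1 ≤ s)
    (hc : c + 1 = 2 ^ s) (hlam : ∀ n, LamOK n) {g : BMap d} {r0 : ℕ}
    (h : ∀ r, r0 ≤ r → ∃ (A : C(Sph d, Om (r + 1))) (hA : Rep g (r + 1) A), GamNe A hA.base c) :
    ¬ AFge3 g := by
  rintro ⟨n0, A₀, h₀, hF⟩
  obtain ⟨A, hA, i, hi, hL⟩ := h (n0 + (r0 + d + 1)) (by omega)
  exact af3_contra (n0 := n0) (j := r0 + d + 2) (k := KJ.kk (n0 + (r0 + d + 2)))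
    (V := KJ.VV (n0 + (r0 + d + 2))) hd (d' := n0 + (r0 + d + 1)) hi hdc hs hc
    (by
      have : n0 + (r0 + d + 1) + 1 ≤ i + 1 := by
        rw [hi]
        exact Nat.le_add_right _ _
      omega)
    (by rw [finrank_euclideanSpace, Fintype.card_fin]; rfl) (by omega) h₀ hF hA
    (KJ.gamS (adjS A hA.base) (adjS_infty A hA.base)) (KJ.gamS_infty _ _)
    (KJ.lamS (n0 + (r0 + d + 2))) (KJ.lamS_infty _)
    (KJ.susp (adjS A hA.base) (adjS_infty A hA.base) _)
    (fun u w => KJ.susp_join2 (adjS A hA.base) (adjS_infty A hA.base) u w)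
    (KJ.kp hd (adjS A hA.base) (adjS_infty A hA.base)) (hlam _ i hi) hL

end Vale.Agent.P263.K
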