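import Vale.Agent.P263.K.NotAF
import Vale.Agent.P263.KJ.LamOK
import Vale.Agent.P263.TJ.CmpH
import Vale.Agent.P263.TOP.LitL1
import Vale.Agent.P263.TOP.ContractFin

/-!
# P263, section K: stem `2^{s+1} - 2`, the final statement

* `value_KK` : the value of the functional square on the chain of boxes is one.
* `hP_of` : an element whose leading functional has length two is not of Adams filtration at least
  three.
-/

noncomputable section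

open OnePoint Topology

namespace Vale.Agent.P263.K

open Vale.Agent.P263.S Vale.Agent.P263.E Vale.Agent.P263.TJ Vale.Agent.P263.G2
  Vale.Agent.P263.TOP Vale.Agent.P263.TOP.H Vale.Agent.P263.TW

/-- the value on the chain of boxes is one -/
theorem value_KK {d k : ℕ} {G : Geo d (2 ^ k)} {g : C(T0.Sph d, T0.Q0S0)} {r : ℕ}
    (X : Stage G (rkBox (2 ^ k)) g r) (h1 : hfun G.phi 1 = 0) (h : G.phi ≠ 0)
    {v : Cc (FNr (r + 1) 2 Unit)} {s : Cc (OFr (r + 1) (Fin 2))}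
    (hv : (KJ.d2 (r + 1)).Cl v s) :
    ∃ c s : ℕ, 0 + 2 * c = d ∧ c + 1 = 2 ^ s ∧
      evc (Cc.pull ((KJ.idxFS (r + 1) (2 ^ k)).map (KJ.npS (r + 1)))
        (KK (KJ.lab2 (r + 1)).lab (KJ.npS (r + 1)) 0 0
          (KJ.extP (r + 1) (KJ.Cc.pw v c)))) X.ξ = 1 := by
  obtain ⟨c, s, hc, hs, H⟩ := X.value_two contract h1 h
  obtain ⟨U, x, hU, hx, hv2⟩ := cmp_two (r + 1) (2 ^ k) hv hc
  exact ⟨c, s, hc, hs, (hv2 X.ξ X.cyc).symm.trans (H U hU x hx)⟩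

/-- level L2(b) for a chain of boxes -/
def GamNeOK : Prop :=
  ∀ {r N d c : ℕ} (_ : c < r) (_ : 0 < c) (A : C(T0.Sph d, T0.Om (r + 1)))
    (hA : A ∞ = T0.Om.const (r + 1)) (cc : GB.Cut) (R : T0.Om (r + 1))
    {v : Cc (FNr (r + 1) 2 Unit)} {s : Cc (OFr (r + 1) (Fin 2))} (_ : (KJ.d2 (r + 1)).Cl v s)
    (_ : IsCyc d (fcyc d))
    {ξ : Chn (ZMod 2) (FNr (r + 1) N Unit) d} (_ : IsCyc d ξ)
    (_ : IsBd (push (ZMod 2) (gBR r N cc R) d ξ - push (ZMod 2) (singMap A) d (fcyc d)))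
    (_ : evc (Cc.pull ((KJ.idxFS (r + 1) N).map (KJ.npS (r + 1)))
      (KK (KJ.lab2 (r + 1)).lab (KJ.npS (r + 1)) 0 0 (KJ.extP (r + 1) (KJ.Cc.pw v c)))) ξ ≠ 0)
    (_ : d = 2 * c), GamNe A hA c

/-- **The final statement in length two.** -/
theorem hP_of (hN : @GamNeOK) {d : ℕ} (hd : 0 < d) (g : T0.BMap d) (k : ℕ) (G : Geo d (2 ^ k))
    (h1 : hfun G.phi 1 = 0) (h : G.phi ≠ 0)
    (hst : ∃ r0 : ℕ, ∀ r, r0 ≤ r → Nonempty (Stage G (rkBox (2 ^ k)) g.1.hom r)) :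
    ¬ AFge3 g := by
  obtain ⟨r0, hst⟩ := hst
  obtain ⟨c, s, hc, hs⟩ : ∃ c s : ℕ, 0 + 2 * c = d ∧ c + 1 = 2 ^ s := by
    obtain ⟨X⟩ := hst r0 le_rfl
    obtain ⟨v, s', hv⟩ := (KJ.d2 (r0 + 1)).exists_cl
    obtain ⟨c, s, hc, hs, -⟩ := value_KK X h1 h hv
    exact ⟨c, s, hc, hs⟩
  have hs1 : 1 ≤ s := by
    rcases Nat.eq_zero_or_pos s with rfl | h0
    · exfalso
      rw [pow_zero] at hs
      omega
    · exact h0
  refine KJ.not_AFge3_of_gamNe hd (by omega : d = 2 * c) hs1 hs (r0 := r0 + d) fun r hr => ?_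
  obtain ⟨X⟩ := hst r (by omega)
  obtain ⟨v, s', hv⟩ := (KJ.d2 (r + 1)).exists_cl
  obtain ⟨c', s'', hc', -, hval⟩ := value_KK X h1 h hv
  obtain rfl : c' = c := by omega
  refine ⟨X.A, X.rep, hN (by omega) (by omega) X.A X.rep.base GB.half X.R hv (isCyc_sphCyc hd)
    X.cyc X.bd' ?_ (by omega)⟩
  rw [hval]
  exact one_ne_zero

end Vale.Agent.P263.K
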