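import Vale.Agent.P263.K.Kun2
import Vale.Agent.P263.K.HopfBr

/-!
# P263, block K: the Hopf construction has Hopf invariant one

Let `X` be a mod 2 cohomology sphere of odd dimension `m`, `μ : X × X → X` with `μ (x, o) = x` and
`μ (o, y) = ι y`, `ι` an involution. Let `π : X × X × [0, 1] → X'` be a parametrization of the join
(`π (x, y, 0)` depends only on `x`, `π (x, y, 1)` only on `y`), `Q : X × [0, 1] → Y'` a
parametrization of the unreduced suspension, and `F : X' → Y'` with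
`F (π (x, y, s)) = Q (μ (x, y), s)`. Then `Sq^{m+1} ≠ 0` on `H^{m+1}(Cyl F, X')`.
-/

open Finset OnePoint

namespace Vale.Agent.P263.K

open Vale.Agent.P263.S Vale.Agent.P263.E Vale.Agent.P263.H83 Vale.Agent.P263.G2
  Vale.Agent.P263.TJ Vale.Agent.P263.T0

/-! ### the front restriction -/

section mE

variable {W : SS}

/-- `h ∪ e` depends only on the restriction of `h` to the end `0` -/
theorem mE_snd (h : Cc (W.prod D1)) :
    Cc.mE (SS.snd W D1) h =
      Cc.mE (SS.snd W D1) (Cc.pull (SS.fst W D1) (Cc.pull (endP0 W) h)) := by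
  funext p z
  obtain ⟨c, hc, hc'⟩ := exists_thD ((SS.snd W D1).app z)
  rw [mE_apply hc', mE_apply hc', sE, sE]
  split_ifs with h1
  · obtain ⟨S, hS⟩ : ∃ S, S = (range (p + 1)).filter (· < c) := ⟨_, rfl⟩
    rw [← hS]
    by_cases h0 : S.card = 0
    · rw [card_eq_zero.1 h0, co_empty, co_empty]
    · rw [co_of_ne h0, co_of_ne h0]
      have h2 : (W.prod D1).map (cl (S.card - 1) p (enu S)) z =
          (endP0 W).app (W.map (cl (S.card - 1) p (enu S)) z.1) := by
        refine Prod.ext rfl ?_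
        have hc2 : z.2 = thD p c := hc'
        show (z.2 : Op p 1).comp (cl (S.card - 1) p (enu S)) = c0 (S.card - 1)
        rw [hc2]
        apply OrderHom.ext
        funext y
        have hy : y.1 < S.card := by have := y.2; omega
        have hm := mem_filter.1 (hS ▸ enu_mem hy : enu S y.1 ∈ (range (p + 1)).filter (· < c))
        have hr := mem_range.1 hm.1
        show th p c (cl (S.card - 1) p (enu S) y) = c0 (S.card - 1) y
        rw [th_val, c0_val, if_pos]
        rw [cl_val (enu_strictMono S).monotone, min_eq_left (by omega)]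
        exact hm.2
      rw [h2]
      rfl
  · rfl

/-- integration of `h ∪ e` -/
theorem Dst_mE_snd (h : Cc (W.prod D1)) :
    Dst (Cc.mE (SS.snd W D1) h) = Cc.pull (endP0 W) h := by
  rw [mE_snd, Dst_mE]

end mE

/-! ### cochains of odd degree and constant maps -/

/-- the pull back along a constant map of a cochain of odd degree, if its coboundary vanishes -/
theorem pull_const_odd {S X : Type} [TopologicalSpace S] [TopologicalSpace X] {k : ℕ}
    (hk : Odd k) {u : Cc (sing X)} (hu : Cc.IsDeg k u) (f : C(S, X)) (hf : ∀ s s', f s = f s')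
    (hd : Cc.pull (singMap f) (Cc.d u) = 0) : Cc.pull (singMap f) u = 0 := by
  funext p σ
  by_cases hp : p = k
  · subst hp
    have h1 := congrFun (congrFun hd (p + 1)) ((sing S).map (sg p 0) σ)
    have h2 : Cc.pull (singMap f) (Cc.d u) (p + 1) ((sing S).map (sg p 0) σ) =
        ∑ i ∈ range (p + 2), u p ((sing X).map (dl p i)
          ((singMap f).app ((sing S).map (sg p 0) σ))) := d_succ_apply u _
    rw [h2] at h1
    have h3 : ∀ i ∈ range (p + 2), u p ((sing X).map (dl p i)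
        ((singMap f).app ((sing S).map (sg p 0) σ))) = Cc.pull (singMap f) u p σ := by
      intro i _
      show u p _ = u p _
      congr 1
      apply ContinuousMap.ext
      intro t
      exact hf _ _
    rw [sum_congr rfl h3, sum_const, card_range, nsmul_eq_mul] at h1
    have h4 : ((p + 2 : ℕ) : ZMod 2) = 1 := SphCc.cast_odd (by
      obtain ⟨l, hl⟩ := hk
      exact ⟨l + 1, by omega⟩)
    rw [h4, one_mul] at h1
    exact h1
  · exact hu p hp _

/-- homogeneous primitives -/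
theorem exists_prim {W : SS} {n : ℕ} (h : (Cc.gr W).Van (n + 1)) {z : Cc W}
    (hz : Cc.IsDeg (n + 1) z) (hd : Cc.d z = 0) : ∃ e : Cc W, Cc.IsDeg n e ∧ Cc.d e = z := by
  obtain ⟨w, hw⟩ := h.exists (G := Cc.gr W) hz hd
  obtain ⟨e, he, h1⟩ := (Cc.gr W).exists_of_d hz hw
  exact ⟨e, he, h1.symm⟩

/-! ### the theorem -/

section main

variable {X X' Y' : Type} [TopologicalSpace X] [TopologicalSpace X'] [TopologicalSpace Y']

theorem coh_of_d' {W : SS} {z w : Cc W} (h : z = Cc.d w) : (Cc.cupC W).Coh z 0 :=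
  ⟨w, (add_zero (z : (Cc.cupC W).C)).trans h⟩

theorem coh_add_zero {W : SS} {z w : Cc W} (hz : (Cc.cupC W).Coh z 0) (hw : (Cc.cupC W).Coh w 0) :
    (Cc.cupC W).Coh (z + w) 0 := by
  have h := hz.add hw
  rwa [add_zero] at h

/-- The data of a Hopf construction. -/
structure HopfData (X X' Y' : Type) [TopologicalSpace X] [TopologicalSpace X']
    [TopologicalSpace Y'] where
  /-- the multiplication -/
  μ : C(X × X, X)
  /-- the unit -/
  o : X
  /-- the inversion -/
  ι : C(X, X)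
  μ_o : ∀ x, μ (x, o) = x
  o_μ : ∀ y, μ (o, y) = ι y
  ι_ι : ∀ y, ι (ι y) = y
  /-- the parametrization of the join -/
  π : C((X × X) × unitInterval, X')
  /-- the first end -/
  j₁ : C(X, X')
  /-- the second end -/
  j₂ : C(X, X')
  π_zero : ∀ x y, π ((x, y), 0) = j₁ x
  π_one : ∀ x y, π ((x, y), 1) = j₂ y
  /-- the parametrization of the suspension -/
  Q : C(X × unitInterval, Y')
  Q_zero : ∀ x x', Q (x, 0) = Q (x', 0)
  Q_one : ∀ x x', Q (x, 1) = Q (x', 1)
  /-- the Hopf construction -/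
  F : C(X', Y')
  F_π : ∀ x y s, F (π ((x, y), s)) = Q (μ (x, y), s)

variable (H : HopfData X X' Y')

/-- **The Hopf construction has Hopf invariant one.** -/
theorem HopfData.sqNe {m : ℕ} (hm : Odd m)
    (vanX : ∀ k, 0 < k → k ≠ m → (Cc.gr (sing X)).Van k)
    (vanX' : (Cc.gr (sing X')).Van (m + 1))
    (vanY1 : (Cc.gr (sing Y')).Van (2 * m + 1)) (vanY2 : (Cc.gr (sing Y')).Van (2 * m + 2))
    (cross : ∀ u v : Cc (sing X), Cc.IsDeg m u → Cc.IsDeg m v → Cc.d u = 0 → Cc.d v = 0 →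
      (¬ ∃ a : Cc (sing X), Cc.d a = u) → (¬ ∃ a : Cc (sing X), Cc.d a = v) →
      ¬ ∃ w : Cc (sing (X × X)), Cc.cup 1 (Cc.pull (singMap (fstC X X)) u)
        (Cc.pull (singMap (sndC X X)) v) = Cc.d w)
    {b : Cc (sing Y')} (hb : Cc.IsDeg (m + 1) b) (hdb : Cc.d b = 0)
    (hb0 : ∀ (S : Type) [TopologicalSpace S] (f : C(S, Y')), (∀ s s', f s = f s') →
        Cc.pull (singMap f) b = 0)
    (hbne : ¬ ∃ a : Cc (sing X), Cc.d a = DI (Cc.pull (singMap H.Q) b)) :
    SqNe H.F (m + 1) 0 := by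
  obtain ⟨μ, o, ι, hμo, hoμ, hιι, π, j₁, j₂, hπ0, hπ1, Q, hQ0, hQ1, F, hFπ⟩ := H
  change ¬ ∃ a : Cc (sing X), Cc.d a = DI (Cc.pull (singMap Q) b) at hbne
  show SqNe F (m + 1) 0
  have hm0 : 0 < m := hm.pos
  -- the cochain `e`
  obtain ⟨e, hedeg, he⟩ := exists_prim vanX' (z := Cc.pull (singMap F) b) (hb.pull _) (by
    rw [← pull_d, hdb]; rfl)
  -- the cochain `c`
  obtain ⟨c, hcdeg, hc⟩ := exists_prim vanY2 (z := Cc.cup 1 b b) (hb.cup hb (by omega)) (by
    rw [d_cup_one, hdb, cup_zero_left, cup_zero_right, add_zero])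
  have hc0 : ∀ (S : Type) [TopologicalSpace S] (f : C(S, Y')), (∀ s s', f s = f s') →
      Cc.pull (singMap f) c = 0 := by
    intro S _ f hf
    refine pull_const_odd ⟨m, rfl⟩ hcdeg f hf ?_
    rw [hc, pull_cup, hb0 S f hf, cup_zero_left]
  let D : CupC.FSqD (Cc.pullHom (singMap F)) 0 := ⟨b, e, c, hdb, he, hc.symm⟩
  have hDval : D.val = (Cc.cup 1 e (Cc.pull (singMap F) b) + Cc.pull (singMap F) c :
      Cc (sing X')) := by
    show Cc.cup 0 e e + Cc.cup 1 e (Cc.d e) + Cc.pull (singMap F) c = _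
    rw [cup_zero, zero_add, he]
  refine sqNe_of_FSqD F (k := m + 1) (i := 0) (m := m) D hb hedeg rfl ?_
  intro y₁ hy₁ hcoh
  -- the functional square is null
  have hvaldeg : Cc.IsDeg (2 * m + 1) (D.val : Cc (sing X')) := by
    rw [hDval]
    exact (hedeg.cup (hb.pull _) (by omega)).add (hcdeg.pull _)
  have hnull : (Cc.cupC (sing X')).Coh D.val 0 := by
    have h1 := comp_isDeg_coh hvaldeg hcoh
    rw [Cc.comp_pull] at h1
    exact h1.trans ((vanY1 _ (Cc.isDeg_comp _ y₁) (d_comp hy₁)).map (Cc.pullHom (singMap F)))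
  obtain ⟨w, hw⟩ := exists_of_coh hnull
  rw [hDval] at hw
  -- the ends
  have hFj₁ : ∀ x x', F (j₁ x) = F (j₁ x') := fun x x' => by
    rw [← hπ0 x o, ← hπ0 x' o, hFπ, hFπ]; exact hQ0 _ _
  have hFj₂ : ∀ x x', F (j₂ x) = F (j₂ x') := fun x x' => by
    rw [← hπ1 o x, ← hπ1 o x', hFπ, hFπ]; exact hQ1 _ _
  set e₁ : Cc (sing X) := Cc.pull (singMap j₁) e with he₁
  set e₂ : Cc (sing X) := Cc.pull (singMap j₂) e with he₂
  have hde₁ : Cc.d e₁ = 0 := by
    rw [he₁, ← pull_d, he]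
    exact hb0 X (F.comp j₁) hFj₁
  have hde₂ : Cc.d e₂ = 0 := by
    rw [he₂, ← pull_d, he]
    exact hb0 X (F.comp j₂) hFj₂
  have he₁deg : Cc.IsDeg m e₁ := hedeg.pull _
  have he₂deg : Cc.IsDeg m e₂ := hedeg.pull _
  set w₁ : Cc (sing X) := Cc.pull (singMap j₁) w with hw₁
  set w₂ : Cc (sing X) := Cc.pull (singMap j₂) w with hw₂
  have hdw₁ : Cc.d w₁ = 0 := by
    rw [hw₁, ← pull_d, ← hw, pull_add, pull_cup]
    have h1 : Cc.pull (singMap j₁) (Cc.pull (singMap F) b) = 0 := hb0 X (F.comp j₁) hFj₁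
    have h2 : Cc.pull (singMap j₁) (Cc.pull (singMap F) c) = 0 := hc0 X (F.comp j₁) hFj₁
    rw [h1, h2, cup_zero_right, add_zero]
  have hdw₂ : Cc.d w₂ = 0 := by
    rw [hw₂, ← pull_d, ← hw, pull_add, pull_cup]
    have h1 : Cc.pull (singMap j₂) (Cc.pull (singMap F) b) = 0 := hb0 X (F.comp j₂) hFj₂
    have h2 : Cc.pull (singMap j₂) (Cc.pull (singMap F) c) = 0 := hc0 X (F.comp j₂) hFj₂
    rw [h1, h2, cup_zero_right, add_zero]
  -- pull back to `X × X × I`
  set T := sing ((X × X) × unitInterval) with hT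
  set E : Cc T := Cc.pull (singMap π) e with hE
  have hFπ' : ∀ u : Cc (sing Y'), Cc.pull (singMap π) (Cc.pull (singMap F) u) =
      Cc.pull (singMap (timesI μ)) (Cc.pull (singMap Q) u) := by
    intro u
    have h1 : F.comp π = Q.comp (timesI μ) := by
      apply ContinuousMap.ext
      rintro ⟨⟨x, y⟩, s⟩
      exact hFπ x y s
    have h2 : Cc.pull (singMap (F.comp π)) u = Cc.pull (singMap (Q.comp (timesI μ))) u := by
      rw [h1]
    exact h2
  have hE0 : Cc.pull (singMap (at0 (X × X))) E = Cc.pull (singMap (fstC X X)) e₁ := by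
    have h1 : π.comp (at0 (X × X)) = j₁.comp (fstC X X) := by
      apply ContinuousMap.ext
      rintro ⟨x, y⟩
      exact hπ0 x y
    have h2 : Cc.pull (singMap (π.comp (at0 (X × X)))) e =
        Cc.pull (singMap (j₁.comp (fstC X X))) e := by rw [h1]
    exact h2
  have hw0 : Cc.pull (singMap (at0 (X × X))) (Cc.pull (singMap π) w) =
      Cc.pull (singMap (fstC X X)) w₁ := by
    have h1 : π.comp (at0 (X × X)) = j₁.comp (fstC X X) := by
      apply ContinuousMap.ext
      rintro ⟨x, y⟩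
      exact hπ0 x y
    have h2 : Cc.pull (singMap (π.comp (at0 (X × X)))) w =
        Cc.pull (singMap (j₁.comp (fstC X X))) w := by rw [h1]
    exact h2
  have hE1 : Cc.pull (singMap (at1 (X × X))) E = Cc.pull (singMap (sndC X X)) e₂ := by
    have h1 : π.comp (at1 (X × X)) = j₂.comp (sndC X X) := by
      apply ContinuousMap.ext
      rintro ⟨x, y⟩
      exact hπ1 x y
    have h2 : Cc.pull (singMap (π.comp (at1 (X × X)))) e =
        Cc.pull (singMap (j₂.comp (sndC X X))) e := by rw [h1]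
    exact h2
  have hw1 : Cc.pull (singMap (at1 (X × X))) (Cc.pull (singMap π) w) =
      Cc.pull (singMap (sndC X X)) w₂ := by
    have h1 : π.comp (at1 (X × X)) = j₂.comp (sndC X X) := by
      apply ContinuousMap.ext
      rintro ⟨x, y⟩
      exact hπ1 x y
    have h2 : Cc.pull (singMap (π.comp (at1 (X × X)))) w =
        Cc.pull (singMap (j₂.comp (sndC X X))) w := by rw [h1]
    exact h2
  set y : Cc (sing X) := DI (Cc.pull (singMap Q) b) with hydef
  -- (1)
  have eq1 : Cc.pull (singMap μ) y = Cc.d (DI E) + Cc.pull (singMap (sndC X X)) e₂ +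
      Cc.pull (singMap (fstC X X)) e₁ := by
    have h1 : Cc.d E = Cc.pull (singMap (timesI μ)) (Cc.pull (singMap Q) b) := by
      rw [hE, ← pull_d, he, hFπ']
    have h2 := DI_d E
    rw [h1, DI_pull, hE0, hE1] at h2
    exact h2
  have hybd : ∀ (u : Cc (sing Y')), (∀ (S : Type) [TopologicalSpace S] (f : C(S, Y')),
      (∀ s s', f s = f s') → Cc.pull (singMap f) u = 0) →
      Vn (endsOf (SS.snd (sing X) D1)) (Cc.pull (prI X) (Cc.pull (singMap Q) u)) := by
    intro u hu p z hz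
    rcases hz with hz | hz
    · have h1 : (prI X).app z = (singMap (at0 X)).app z.1 := by
        rw [← prI_end0]
        show (prI X).app z = (prI X).app (z.1, c0 p)
        congr 1
        exact Prod.ext rfl hz
      show u p ((singMap Q).app ((prI X).app z)) = 0
      rw [h1]
      exact congrFun (congrFun (hu X (Q.comp (at0 X)) fun s s' => hQ0 s s') p) z.1
    · have h1 : (prI X).app z = (singMap (at1 X)).app z.1 := by
        rw [← prI_end1]
        show (prI X).app z = (prI X).app (z.1, c1 p)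
        congr 1
        exact Prod.ext rfl hz
      show u p ((singMap Q).app ((prI X).app z)) = 0
      rw [h1]
      exact congrFun (congrFun (hu X (Q.comp (at1 X)) fun s s' => hQ1 s s') p) z.1
  obtain ⟨b', hb'⟩ : ∃ b', b' = Cc.pull (prI X) (Cc.pull (singMap Q) b) := ⟨_, rfl⟩
  obtain ⟨c', hc'⟩ : ∃ c', c' = Cc.pull (prI X) (Cc.pull (singMap Q) c) := ⟨_, rfl⟩
  have hb'v : Vn (endsOf (SS.snd (sing X) D1)) b' := hb' ▸ hybd b hb0
  have hc'v : Vn (endsOf (SS.snd (sing X) D1)) c' := hc' ▸ hybd c hc0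
  have hdb' : Cc.d b' = 0 := by rw [hb', ← pull_d, ← pull_d, hdb]; rfl
  have hdc' : Cc.d c' = Cc.cup 1 b' b' := by
    rw [hc', hb', ← pull_d, ← pull_d, hc, pull_cup, pull_cup]
  have hyb' : y = Dst b' := by rw [hb']; rfl
  have hdy : Cc.d y = 0 := by rw [hyb', ← Dst_d_rel hb'v, hdb', Dst_zero]
  have hydeg : Cc.IsDeg m y := isDeg_DI (hb.pull _)
  -- the two restrictions are not null
  have hconst : ∀ u : Cc (sing X), Cc.IsDeg m u → Cc.d u = 0 → ∀ f : C(X, X),
      (∀ s s', f s = f s') → Cc.pull (singMap f) u = 0 := fun u hu hdu f hf =>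
    pull_const_odd hm hu f hf (by rw [hdu]; rfl)
  have he₁ne : ¬ ∃ a : Cc (sing X), Cc.d a = e₁ := by
    rintro ⟨a, ha⟩
    have h1 := congrArg (Cc.pull (singMap (inl X o))) eq1
    rw [pull_add, pull_add, pull_d] at h1
    have h2 : Cc.pull (singMap (inl X o)) (Cc.pull (singMap μ) y) = y := by
      have h3 : μ.comp (inl X o) = ContinuousMap.id X := ContinuousMap.ext hμo
      have h4 : Cc.pull (singMap (μ.comp (inl X o))) y = Cc.pull (singMap (ContinuousMap.id X)) y :=
        by rw [h3]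
      exact h4
    have h3 : Cc.pull (singMap (inl X o)) (Cc.pull (singMap (sndC X X)) e₂) = 0 :=
      hconst e₂ he₂deg hde₂ ((sndC X X).comp (inl X o)) fun _ _ => rfl
    have h4 : Cc.pull (singMap (inl X o)) (Cc.pull (singMap (fstC X X)) e₁) = e₁ := rfl
    rw [h2, h3, h4, add_zero, ← ha, ← d_add] at h1
    exact hbne ⟨_, h1.symm⟩
  have he₂ne : ¬ ∃ a : Cc (sing X), Cc.d a = e₂ := by
    rintro ⟨a, ha⟩
    have h1 := congrArg (Cc.pull (singMap (inr X o))) eq1
    rw [pull_add, pull_add, pull_d] at h1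
    have h2 : Cc.pull (singMap (inr X o)) (Cc.pull (singMap μ) y) = Cc.pull (singMap ι) y := by
      have h3 : μ.comp (inr X o) = ι := ContinuousMap.ext hoμ
      have h4 : Cc.pull (singMap (μ.comp (inr X o))) y = Cc.pull (singMap ι) y := by rw [h3]
      exact h4
    have h3 : Cc.pull (singMap (inr X o)) (Cc.pull (singMap (fstC X X)) e₁) = 0 :=
      hconst e₁ he₁deg hde₁ ((fstC X X).comp (inr X o)) fun _ _ => rfl
    have h4 : Cc.pull (singMap (inr X o)) (Cc.pull (singMap (sndC X X)) e₂) = e₂ := rfl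
    rw [h2, h3, h4, add_zero, ← ha, ← d_add] at h1
    have h5 := congrArg (Cc.pull (singMap ι)) h1
    have h6 : Cc.pull (singMap ι) (Cc.pull (singMap ι) y) = y := by
      have h7 : ι.comp ι = ContinuousMap.id X := ContinuousMap.ext hιι
      have h8 : Cc.pull (singMap (ι.comp ι)) y = Cc.pull (singMap (ContinuousMap.id X)) y := by
        rw [h7]
      exact h8
    rw [h6, pull_d] at h5
    exact hbne ⟨_, h5.symm⟩
  -- the suspension coordinate
  obtain ⟨s, hs⟩ : ∃ s : Cc ((sing X).prod D1), s = Cc.mE (SS.snd (sing X) D1)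
    (Cc.pull (SS.fst (sing X) D1) y) := ⟨_, rfl⟩
  have hsd : Cc.d s = 0 := by rw [hs, d_mE, ← pull_d, hdy, pull_zero, mE_zero]
  obtain ⟨r, hrv, -, hr⟩ := Dst_exact (A := Sb.empty (sing X)) (w := b' + s) (a := 0)
    (hb'v.add (hs ▸ Vn_mE _ _)) (fun _ _ h => h.elim) (fun _ _ h => h.elim)
    (by rw [d_add, hdb', hsd, add_zero])
    (by
      rw [Dst_add, ← hyb', hs, Dst_mE, d_zero]
      exact (Cc.cupC (sing X)).two y)
  have hb's : b' = s + Cc.d r := by
    rw [hr, add_comm b', ← add_assoc]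
    have := (Cc.cupC ((sing X).prod D1)).two s
    exact ((zero_add _).symm.trans (congrArg (· + b') this.symm))
  have hr0 : Cc.pull (endP0 (sing X)) r = 0 := by
    funext p x
    exact hrv p _ (Or.inl rfl)
  have hrs : Cc.cup 1 r s = 0 := by
    rw [hs, cup_one_mE, mE_snd, pull_cup, hr0, cup_zero_left, pull_zero, mE_zero]
  have hss : Cc.cup 1 s s = 0 := by
    have h1 := cup_mE (SS.snd (sing X) D1) 0 (Cc.pull (SS.fst (sing X) D1) y)
      (Cc.pull (SS.fst (sing X) D1) y)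
    rw [cup_zero, mE_zero, ← hs] at h1
    exact h1
  have hdrs : Cc.cup 1 (Cc.d r) s = 0 := by
    have h1 := d_cup_one r s
    rw [hrs, hsd, cup_zero_right, add_zero, d_zero] at h1
    exact h1.symm
  obtain ⟨κ, hκ⟩ : ∃ κ, κ = Cc.cup 1 b' r + c' := ⟨_, rfl⟩
  have hκv : Vn (endsOf (SS.snd (sing X) D1)) κ := hκ ▸ (hb'v.cup_left 1 r).add hc'v
  have hdκ : Cc.d κ = 0 := by
    rw [hκ, d_add, d_cup_one, hdb', cup_zero_left, zero_add, hr, hdc', cup_add_right]
    have h1 : Cc.cup 1 b' s = 0 := by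
      conv_lhs => rw [hb's]
      rw [cup_add_left, hss, hdrs, add_zero]
    rw [h1, add_zero]
    exact (Cc.cupC _).two (Cc.cup 1 b' b')
  have hdκ' : Cc.d (Dst κ) = 0 := by rw [← Dst_d_rel hκv, hdκ, Dst_zero]
  -- on `X × X × Δ¹`
  let M : SS.Map ((sing (X × X)).prod D1) ((sing X).prod D1) :=
    SS.pair ((singMap μ).comp (SS.fst (sing (X × X)) D1)) (SS.snd (sing (X × X)) D1)
  obtain ⟨E', hE'⟩ : ∃ E', E' = Cc.pull (prI (X × X)) E := ⟨_, rfl⟩
  obtain ⟨R, hR⟩ : ∃ R, R = Cc.pull M r := ⟨_, rfl⟩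
  obtain ⟨S, hS⟩ : ∃ S, S = Cc.mE (SS.snd (sing (X × X)) D1)
    (Cc.pull (SS.fst (sing (X × X)) D1) (Cc.pull (singMap μ) y)) := ⟨_, rfl⟩
  have hMs : Cc.pull M s = S := by
    rw [hs, hS, pull_mE]
    rfl
  have hdE' : Cc.d E' = Cc.pull M b' := by
    rw [hE', ← pull_d, hE, ← pull_d, he, hFπ', hb']
    rfl
  have hRv : Vn (endsOf (SS.snd (sing (X × X)) D1)) R := by
    rw [hR]
    intro p z hz
    exact hrv p _ hz
  have hE'0 : Cc.pull (endP0 (sing (X × X))) E' = Cc.pull (singMap (fstC X X)) e₁ := by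
    rw [← hE0, ← prI_end0, hE']
    rfl
  have key : Cc.cup 1 E' (Cc.pull M b') + Cc.pull M c' =
      Cc.mE (SS.snd (sing (X × X)) D1) (Cc.cup 1 E'
        (Cc.pull (SS.fst (sing (X × X)) D1) (Cc.pull (singMap μ) y))) +
      Cc.d (Cc.cup 1 E' R) + Cc.pull M κ := by
    have h1 : Cc.cup 1 E' (Cc.pull M b') = Cc.cup 1 E' S + Cc.cup 1 E' (Cc.d R) := by
      conv_lhs => rw [hb's]
      rw [pull_add, hMs, pull_d, ← hR, cup_add_right]
    have h2 : Cc.d (Cc.cup 1 E' R) = Cc.cup 1 (Cc.pull M b') R + Cc.cup 1 E' (Cc.d R) := by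
      rw [d_cup_one, hdE']
    have h3 : Cc.pull M κ = Cc.cup 1 (Cc.pull M b') R + Cc.pull M c' := by
      rw [hκ, pull_add, pull_cup, hR]
    rw [h1, h2, h3, ← cup_one_mE, ← hS]
    have h4 := (Cc.cupC _).two (Cc.cup 1 (Cc.pull M b') R)
    have h5 : ∀ a b c d : Cc ((sing (X × X)).prod D1), c + c = 0 →
        a + b + d = a + (c + b) + (c + d) := by
      intro a b c d h
      calc a + b + d = a + b + d + (c + c) := by rw [h, add_zero]
        _ = _ := by abel
    exact h5 _ _ _ _ h4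
  have keyD := congrArg Dst key
  rw [Dst_add (w := Cc.mE _ _ + _), Dst_add (w := Cc.mE _ _), Dst_mE_snd, Dst_d_rel
    (Vn.cup_right 1 _ hRv), pull_cup, hE'0] at keyD
  have hendfst : Cc.pull (endP0 (sing (X × X)))
      (Cc.pull (SS.fst (sing (X × X)) D1) (Cc.pull (singMap μ) y)) = Cc.pull (singMap μ) y := rfl
  have hDM : Dst (Cc.pull M κ) = Cc.pull (singMap μ) (Dst κ) := Dst_pull (singMap μ) κ
  rw [hendfst, hDM] at keyD
  -- the other side
  have hval : Cc.cup 1 E' (Cc.pull M b') + Cc.pull M c' =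
      Cc.pull (prI (X × X)) (Cc.d (Cc.pull (singMap π) w)) := by
    rw [← pull_d, ← hw, pull_add, pull_add, pull_cup, pull_cup, hFπ', hFπ', hE', hb', hc']
    rfl
  have hDval : Dst (Cc.pull (prI (X × X)) (Cc.d (Cc.pull (singMap π) w))) =
      Cc.d (DI (Cc.pull (singMap π) w)) + Cc.pull (singMap (sndC X X)) w₂ +
        Cc.pull (singMap (fstC X X)) w₁ := by
    have h1 := DI_d (Cc.pull (singMap π) w)
    rw [hw0, hw1] at h1
    exact h1
  rw [hval, hDval] at keyD
  -- the conclusion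
  have hcoh : (Cc.cupC (sing (X × X))).Coh
      (Cc.cup 1 (Cc.pull (singMap (fstC X X)) e₁) (Cc.pull (singMap μ) y))
      (Cc.pull (singMap μ) (Dst κ) + Cc.pull (singMap (sndC X X)) w₂ +
        Cc.pull (singMap (fstC X X)) w₁) := by
    refine ⟨DI (Cc.pull (singMap π) w) + Dst (Cc.cup 1 E' R), ?_⟩
    funext p z
    have h5 : ∀ a b c d e f : ZMod 2, a + b + c = d + e + f → d + (f + b + c) = a + e := by
      decide
    have h6 := h5 _ _ _ _ _ _ (congrFun (congrFun keyD p) z)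
    rw [Cc.cupC_d, d_add]
    exact h6
  have hLdeg : Cc.IsDeg (2 * m) (Cc.cup 1 (Cc.pull (singMap (fstC X X)) e₁)
      (Cc.pull (singMap μ) y)) := (he₁deg.pull _).cup (hydeg.pull _) (by omega)
  have hvan : ∀ (u : Cc (sing X)), Cc.d u = 0 → (Cc.cupC (sing X)).Coh (Cc.comp (2 * m) u) 0 :=
    fun u hu => vanX (2 * m) (by omega) (by omega) _ (Cc.isDeg_comp _ u) (d_comp hu)
  have hL0 : (Cc.cupC (sing (X × X))).Coh (Cc.cup 1 (Cc.pull (singMap (fstC X X)) e₁)
      (Cc.pull (singMap μ) y)) 0 := by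
    refine (comp_isDeg_coh hLdeg hcoh).trans ?_
    rw [Cc.comp_add, Cc.comp_add, Cc.comp_pull, Cc.comp_pull, Cc.comp_pull]
    exact coh_add_zero (coh_add_zero ((hvan _ hdκ').map (Cc.pullHom (singMap μ)))
      ((hvan _ hdw₂).map (Cc.pullHom (singMap (sndC X X)))))
      ((hvan _ hdw₁).map (Cc.pullHom (singMap (fstC X X))))
  have hee : (Cc.cupC (sing X)).Coh (Cc.cup 1 e₁ e₁) 0 :=
    vanX (2 * m) (by omega) (by omega) _ (he₁deg.cup he₁deg (by omega)) (by
      show Cc.d (Cc.cup 1 e₁ e₁) = 0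
      rw [d_cup_one, hde₁, cup_zero_left, cup_zero_right, add_zero])
  have hdfe : Cc.d (Cc.pull (singMap (fstC X X)) e₁) = 0 := by rw [← pull_d, hde₁]; rfl
  have hL1 : Cc.cup 1 (Cc.pull (singMap (fstC X X)) e₁) (Cc.pull (singMap (sndC X X)) e₂) =
      Cc.cup 1 (Cc.pull (singMap (fstC X X)) e₁) (Cc.pull (singMap μ) y) +
        Cc.d (Cc.cup 1 (Cc.pull (singMap (fstC X X)) e₁) (DI E)) +
        Cc.pull (singMap (fstC X X)) (Cc.cup 1 e₁ e₁) := by
    rw [eq1, cup_add_right, cup_add_right, d_cup_one, hdfe, cup_zero_left, zero_add, pull_cup]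
    funext p z
    have h5 : ∀ a b c : ZMod 2, b = a + b + c + a + c := by decide
    exact h5 _ _ _
  have hfin : (Cc.cupC (sing (X × X))).Coh (Cc.cup 1 (Cc.pull (singMap (fstC X X)) e₁)
      (Cc.pull (singMap (sndC X X)) e₂)) 0 := by
    rw [hL1]
    exact coh_add_zero (coh_add_zero hL0 (coh_of_d' rfl))
      (hee.map (Cc.pullHom (singMap (fstC X X))))
  obtain ⟨v, hv⟩ := exists_of_coh hfin
  exact cross e₁ e₂ he₁deg he₂deg hde₁ hde₂ he₁ne he₂ne ⟨v, hv⟩

end main

end Vale.Agent.P263.K
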