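import Vale.Agent.P263.K.HopfLit
import Vale.Agent.P263.T0.Ball

/-!
# P263, block K: existence of the Hopf maps as maps of spheres `ℝⁿ ∪ {∞}`

`HK.hopf_cont` : the Hopf map `S(K × K) → K ∪ {∞}` is continuous.
`HK.exists_hopf` : there are a based map `F : S^{2d+1} → S^{d+1}`, a homeomorphism of `S^{2d+1}` with
the unit sphere of `K × K` and a linear isomorphism of `K` with `ℝ^{d+1}` such that `F` is the Hopf
map.
-/

open Finset OnePoint Topology Filter

namespace Vale.Agent.P263.K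

open Vale.Agent.P263.S Vale.Agent.P263.E Vale.Agent.P263.G2 Vale.Agent.P263.TJ
  Vale.Agent.P263.T0

variable {K : Type} [TopologicalSpace K] [AddCommGroup K] [Module ℝ K] {q : K → ℝ}
  {m : K → K → K} {d : ℕ}

namespace HK

variable (H : HK K q m d)

include H

theorem norm_φ (x : K) : ‖H.φ x‖ = Real.sqrt (q x) := by
  rw [H.q_eq, Real.sqrt_sq (norm_nonneg _)]

theorem sqrt_pos (z : S2 q) : 0 < Real.sqrt (q z.1.2) + Real.sqrt (q z.1.1) := by
  have h1 := z.2
  have h2 := H.q_nonneg z.1.1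
  have h3 := H.q_nonneg z.1.2
  have h4 := Real.sqrt_nonneg (q z.1.1)
  have h5 := Real.sqrt_nonneg (q z.1.2)
  by_contra h
  have h6 : Real.sqrt (q z.1.2) = 0 := by linarith
  have h7 : Real.sqrt (q z.1.1) = 0 := by linarith
  rw [Real.sqrt_eq_zero h3] at h6
  rw [Real.sqrt_eq_zero h2] at h7
  rw [h6, h7] at h1
  norm_num at h1

theorem rho_hopf (z : S2 q) : Ball.rho ((hopfK q m z).map H.φ) =
    Real.sqrt (q z.1.2) / (Real.sqrt (q z.1.2) + Real.sqrt (q z.1.1)) := by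
  by_cases hz : z.1.2 = 0
  · have h1 : hopfK q m z = ∞ := if_pos hz
    rw [h1, hz, H.q_zero, Real.sqrt_zero, zero_div]
    rfl
  · have h1 : hopfK q m z = (((q z.1.2)⁻¹ • m z.1.1 z.1.2 : K) : OnePoint K) := if_neg hz
    have h2 : 0 < q z.1.2 := lt_of_le_of_ne (H.q_nonneg _) fun h => hz (H.q_eq_zero.1 h.symm)
    have h3 : 0 < Real.sqrt (q z.1.2) := Real.sqrt_pos.2 h2
    rw [h1]
    show (1 + ‖H.φ ((q z.1.2)⁻¹ • m z.1.1 z.1.2)‖)⁻¹ = _
    rw [H.norm_φ, H.q_smul, H.q_m]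
    have h4 : (q z.1.2)⁻¹ ^ 2 * (q z.1.1 * q z.1.2) = q z.1.1 / q z.1.2 := by
      field_simp
    rw [h4, Real.sqrt_div (H.q_nonneg _)]
    field_simp

/-- **The Hopf map is continuous.** -/
theorem hopf_cont [ContinuousSMul ℝ K] : Continuous fun z : S2 q => (hopfK q m z).map H.φ := by
  rw [continuous_iff_continuousAt]
  intro z₀
  have c1 : Continuous fun z : S2 q => z.1.1 := continuous_fst.comp continuous_subtype_val
  have c2 : Continuous fun z : S2 q => z.1.2 := continuous_snd.comp continuous_subtype_val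
  by_cases hz : z₀.1.2 = 0
  · have h1 : (hopfK q m z₀).map H.φ = ∞ := congrArg (OnePoint.map H.φ) (if_pos hz)
    show Tendsto _ (𝓝 z₀) (𝓝 ((hopfK q m z₀).map H.φ))
    rw [h1, Ball.tendsto_infty_iff]
    have h2 : (fun z : S2 q => Ball.rho ((hopfK q m z).map H.φ)) = fun z =>
        Real.sqrt (q z.1.2) / (Real.sqrt (q z.1.2) + Real.sqrt (q z.1.1)) := funext H.rho_hopf
    have h3 : Continuous fun z : S2 q =>
        Real.sqrt (q z.1.2) / (Real.sqrt (q z.1.2) + Real.sqrt (q z.1.1)) :=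
      (Real.continuous_sqrt.comp (H.q_cont.comp c2)).div
        ((Real.continuous_sqrt.comp (H.q_cont.comp c2)).add
          (Real.continuous_sqrt.comp (H.q_cont.comp c1))) fun z => (H.sqrt_pos z).ne'
    rw [h2]
    have h4 := h3.tendsto z₀
    have h5 : Real.sqrt (q z₀.1.2) / (Real.sqrt (q z₀.1.2) + Real.sqrt (q z₀.1.1)) = 0 := by
      rw [hz, H.q_zero, Real.sqrt_zero, zero_div]
    rwa [h5] at h4
  · have hq : q z₀.1.2 ≠ 0 := fun h => hz (H.q_eq_zero.1 h)
    have ho : IsOpen {z : S2 q | q z.1.2 ≠ 0} :=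
      (isOpen_compl_singleton (x := (0 : ℝ))).preimage (H.q_cont.comp c2)
    have h1 : (fun z : S2 q => (hopfK q m z).map H.φ) =ᶠ[𝓝 z₀] fun z =>
        ((H.φ ((q z.1.2)⁻¹ • m z.1.1 z.1.2) : EuclideanSpace ℝ (Fin (d + 1))) : OnePoint _) := by
      filter_upwards [ho.mem_nhds hq] with z hz'
      exact congrArg (OnePoint.map H.φ) (if_neg fun h => hz' (by rw [h, H.q_zero]))
    refine ContinuousAt.congr ?_ h1.symm
    refine OnePoint.continuous_coe.continuousAt.comp (H.φ.continuous.continuousAt.comp ?_)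
    exact ((H.q_cont.comp c2).continuousAt.inv₀ hq).smul
      (H.cont.comp (c1.prodMk c2)).continuousAt

/-! ### the unit sphere of `K × K` -/

omit H in
theorem norm_sq_sum (x : EuclideanSpace ℝ (Fin (d + 1) ⊕ Fin (d + 1))) :
    ‖x‖ ^ 2 = ‖(WithLp.toLp 2 fun i => x (Sum.inl i) : EuclideanSpace ℝ (Fin (d + 1)))‖ ^ 2 +
      ‖(WithLp.toLp 2 fun i => x (Sum.inr i) : EuclideanSpace ℝ (Fin (d + 1)))‖ ^ 2 := by
  rw [EuclideanSpace.real_norm_sq_eq, EuclideanSpace.real_norm_sq_eq,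
    EuclideanSpace.real_norm_sq_eq, Fintype.sum_sum_type]

/-- the coordinates of `K × K` -/
def toE (z : K × K) : EuclideanSpace ℝ (Fin (d + 1) ⊕ Fin (d + 1)) :=
  WithLp.toLp 2 (Sum.elim (H.φ z.1) (H.φ z.2))

/-- the coordinates of `K × K` -/
def ofE (x : EuclideanSpace ℝ (Fin (d + 1) ⊕ Fin (d + 1))) : K × K :=
  (H.φ.symm (WithLp.toLp 2 fun i => x (Sum.inl i)), H.φ.symm (WithLp.toLp 2 fun i => x (Sum.inr i)))

theorem toE_ofE (x : EuclideanSpace ℝ (Fin (d + 1) ⊕ Fin (d + 1))) : H.toE (H.ofE x) = x := by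
  apply WithLp.ofLp_injective
  funext i
  rcases i with i | i
  · show H.φ (H.φ.symm _) i = _
    rw [ContinuousLinearEquiv.apply_symm_apply]
  · show H.φ (H.φ.symm _) i = _
    rw [ContinuousLinearEquiv.apply_symm_apply]

theorem ofE_toE (z : K × K) : H.ofE (H.toE z) = z :=
  Prod.ext (H.φ.symm_apply_apply z.1) (H.φ.symm_apply_apply z.2)

theorem norm_toE (z : K × K) : ‖H.toE z‖ ^ 2 = q z.1 + q z.2 := by
  rw [norm_sq_sum, H.q_eq, H.q_eq]
  rfl

theorem toE_cont : Continuous H.toE := by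
  refine (PiLp.continuous_toLp 2 _).comp (continuous_pi fun i => ?_)
  rcases i with i | i
  · exact (continuous_apply i).comp ((PiLp.continuous_ofLp 2 _).comp
      (H.φ.continuous.comp continuous_fst))
  · exact (continuous_apply i).comp ((PiLp.continuous_ofLp 2 _).comp
      (H.φ.continuous.comp continuous_snd))

theorem ofE_cont : Continuous H.ofE := by
  refine Continuous.prodMk (H.φ.symm.continuous.comp ?_) (H.φ.symm.continuous.comp ?_)
  · exact (PiLp.continuous_toLp 2 _).comp (continuous_pi fun i => (continuous_apply (Sum.inl i)).comp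
      (PiLp.continuous_ofLp 2 _))
  · exact (PiLp.continuous_toLp 2 _).comp (continuous_pi fun i => (continuous_apply (Sum.inr i)).comp
      (PiLp.continuous_ofLp 2 _))

theorem ofE_mem {x : EuclideanSpace ℝ (Fin (d + 1) ⊕ Fin (d + 1))}
    (hx : x ∈ Metric.sphere (0 : EuclideanSpace ℝ (Fin (d + 1) ⊕ Fin (d + 1))) 1) :
    q (H.ofE x).1 + q (H.ofE x).2 = 1 := by
  rw [← H.norm_toE, H.toE_ofE, mem_sphere_zero_iff_norm.1 hx]; norm_num

theorem toE_mem {z : K × K} (hz : q z.1 + q z.2 = 1) :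
    H.toE z ∈ Metric.sphere (0 : EuclideanSpace ℝ (Fin (d + 1) ⊕ Fin (d + 1))) 1 := by
  rw [mem_sphere_zero_iff_norm]
  rw [← H.norm_toE] at hz
  exact (pow_eq_one_iff_of_nonneg (norm_nonneg _) (by norm_num)).1 hz

/-- the unit sphere of `K × K` is a sphere -/
noncomputable def hE :
    Metric.sphere (0 : EuclideanSpace ℝ (Fin (d + 1) ⊕ Fin (d + 1))) 1 ≃ₜ S2 q where
  toFun x := ⟨H.ofE x.1, H.ofE_mem x.2⟩
  invFun z := ⟨H.toE z.1, H.toE_mem z.2⟩
  left_inv x := Subtype.ext (H.toE_ofE x.1)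
  right_inv z := Subtype.ext (H.ofE_toE z.1)
  continuous_toFun := (H.ofE_cont.comp continuous_subtype_val).subtype_mk _
  continuous_invFun := (H.toE_cont.comp continuous_subtype_val).subtype_mk _

/-- `S^{2d+1}` is the unit sphere of `K × K`, with base point `(o, 0)` -/
theorem exists_e : ∃ e : Sph (d + (d + 1)) ≃ₜ S2 q, (e ∞).1.2 = 0 := by
  obtain ⟨v, hv⟩ : ∃ v, v = H.toE (H.o, 0) := ⟨_, rfl⟩
  have hv1 : ‖v‖ = 1 := by
    have h1 : ‖v‖ ^ 2 = 1 := by
      rw [hv, H.norm_toE]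
      show q H.o + q 0 = 1
      rw [H.q_o, H.q_zero, add_zero]
    exact (pow_eq_one_iff_of_nonneg (norm_nonneg _) (by norm_num)).1 h1
  have hv0 : v ≠ 0 := by
    intro h
    rw [h, norm_zero] at hv1
    exact zero_ne_one hv1
  have hf : Module.finrank ℝ (EuclideanSpace ℝ (Fin (d + 1) ⊕ Fin (d + 1))) =
      (d + (d + 1)) + 1 := by
    rw [finrank_euclideanSpace, Fintype.card_sum, Fintype.card_fin]
    omega
  have : Fact (Module.finrank ℝ (EuclideanSpace ℝ (Fin (d + 1) ⊕ Fin (d + 1))) =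
      (d + (d + 1)) + 1) := ⟨hf⟩
  have hV : Module.finrank ℝ (Fin (d + (d + 1)) → ℝ) = Module.finrank ℝ (ℝ ∙ v)ᗮ := by
    rw [Submodule.finrank_orthogonal_span_singleton (𝕜 := ℝ) (n := d + (d + 1)) hv0,
      Module.finrank_fin_fun]
  obtain ⟨e₀⟩ := FiniteDimensional.nonempty_continuousLinearEquiv_of_finrank_eq (𝕜 := ℝ) hV
  refine ⟨((e₀.toHomeomorph.onePointCongr).trans (onePointHyperplaneHomeoUnitSphere hv1)).trans
    H.hE, ?_⟩
  show (H.ofE v).2 = 0
  rw [hv, H.ofE_toE]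

/-- **Existence of the Hopf maps.** -/
theorem exists_hopf [ContinuousSMul ℝ K] : ∃ (F : C(Sph (d + (d + 1)), Sph (d + 1)))
    (e : Sph (d + (d + 1)) ≃ₜ S2 q) (L : K ≃L[ℝ] (Fin (d + 1) → ℝ)),
    (∀ z, F z = (hopfK q m (e z)).map L) ∧ F ∞ = ∞ := by
  obtain ⟨e, he⟩ := H.exists_e
  obtain ⟨L₀, hL₀⟩ : ∃ L₀ : EuclideanSpace ℝ (Fin (d + 1)) ≃L[ℝ] (Fin (d + 1) → ℝ),
    L₀ = EuclideanSpace.equiv (Fin (d + 1)) ℝ := ⟨_, rfl⟩
  let F : C(Sph (d + (d + 1)), Sph (d + 1)) :=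
    ⟨fun z => ((hopfK q m (e z)).map H.φ).map L₀,
      (L₀.toHomeomorph.onePointCongr).continuous.comp (H.hopf_cont.comp e.continuous)⟩
  refine ⟨F, e, H.φ.trans L₀, fun z => ?_, ?_⟩
  · show ((hopfK q m (e z)).map H.φ).map L₀ = (hopfK q m (e z)).map (H.φ.trans L₀)
    generalize hopfK q m (e z) = y
    induction y using OnePoint.rec with
    | infty => rfl
    | coe y => rfl
  · show ((hopfK q m (e ∞)).map H.φ).map L₀ = ∞
    have h1 : hopfK q m (e ∞) = ∞ := if_pos he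
    rw [h1]
    rfl

end HK

end Vale.Agent.P263.K
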