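import Mathlib.Topology.Compactification.OnePoint.Sphere
import Vale.Agent.P263.K.HopfC

/-!
# P263, block K: the literal Hopf maps have Hopf invariant one

`HK K q m d` : the real vector space `K` of dimension `d + 1` with the norm square `q` and the
product `m a b = a b̄`, multiplicative for `q`, with unit `o`.
`HK.sqNe` : `Sq^{d+1} ≠ 0` in the mapping cylinder of the Hopf map `S(K × K) → K ∪ {∞}`,
`(a, b) ↦ a b⁻¹`.
-/

open Finset OnePoint Topology

namespace Vale.Agent.P263.K

open Vale.Agent.P263.S Vale.Agent.P263.E Vale.Agent.P263.G2 Vale.Agent.P263.TJ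
  Vale.Agent.P263.T0

theorem one_sub_sq_nonneg (s : unitInterval) : 0 ≤ 1 - (s : ℝ) ^ 2 := by
  have h0 := s.2.1
  have h1 := s.2.2
  nlinarith

/-- the data of a normed product -/
structure HK (K : Type) [TopologicalSpace K] [AddCommGroup K] [Module ℝ K] (q : K → ℝ)
    (m : K → K → K) (d : ℕ) where
  /-- coordinates -/
  φ : K ≃L[ℝ] EuclideanSpace ℝ (Fin (d + 1))
  q_eq : ∀ x, q x = ‖φ x‖ ^ 2
  cont : Continuous fun z : K × K => m z.1 z.2
  q_m : ∀ a b, q (m a b) = q a * q b
  smul_m : ∀ (t : ℝ) (a b : K), m (t • a) b = t • m a b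
  m_smul : ∀ (t : ℝ) (a b : K), m a (t • b) = t • m a b
  /-- the unit -/
  o : K
  q_o : q o = 1
  m_o : ∀ a, m a o = a
  o_m : ∀ a, m o (m o a) = a

section

variable {K : Type} [TopologicalSpace K] [AddCommGroup K] [Module ℝ K] {q : K → ℝ}
  {m : K → K → K} {d : ℕ}

/-- the unit sphere of `K` -/
abbrev S1 (q : K → ℝ) : Type := {x : K // q x = 1}

/-- the unit sphere of `K × K` -/
abbrev S2 (q : K → ℝ) : Type := {z : K × K // q z.1 + q z.2 = 1}

/-- the Hopf map -/
noncomputable def hopfK (q : K → ℝ) (m : K → K → K) (z : S2 q) : OnePoint K :=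
  open Classical in if z.1.2 = 0 then ∞ else (((q z.1.2)⁻¹ • m z.1.1 z.1.2 : K) : OnePoint K)

namespace HK

variable (H : HK K q m d)

include H

theorem q_smul (t : ℝ) (x : K) : q (t • x) = t ^ 2 * q x := by
  rw [H.q_eq, H.q_eq, map_smul, norm_smul, mul_pow, Real.norm_eq_abs, sq_abs]

theorem q_nonneg (x : K) : 0 ≤ q x := by
  rw [H.q_eq]; positivity

theorem q_zero : q 0 = 0 := by
  rw [H.q_eq, map_zero, norm_zero]; norm_num

theorem q_eq_zero {x : K} : q x = 0 ↔ x = 0 := by
  rw [H.q_eq]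
  constructor
  · intro h
    have h1 : ‖H.φ x‖ = 0 := by
      rcases pow_eq_zero_iff (n := 2) (by norm_num) |>.1 h with h1
      exact h1
    have h2 : H.φ x = 0 := norm_eq_zero.1 h1
    exact (map_eq_zero_iff H.φ H.φ.injective).1 h2
  · rintro rfl
    rw [map_zero, norm_zero]; norm_num

theorem q_cont : Continuous q := by
  have : q = fun x => ‖H.φ x‖ ^ 2 := funext H.q_eq
  rw [this]
  exact (H.φ.continuous.norm).pow 2

theorem mem_sphere {x : K} (hx : q x = 1) :
    H.φ x ∈ Metric.sphere (0 : EuclideanSpace ℝ (Fin (d + 1))) 1 := by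
  rw [mem_sphere_zero_iff_norm]
  rw [H.q_eq] at hx
  exact (pow_eq_one_iff_of_nonneg (norm_nonneg _) (by norm_num)).1 hx

theorem q_of_mem_sphere {x : EuclideanSpace ℝ (Fin (d + 1))}
    (hx : x ∈ Metric.sphere (0 : EuclideanSpace ℝ (Fin (d + 1))) 1) : q (H.φ.symm x) = 1 := by
  rw [H.q_eq, ContinuousLinearEquiv.apply_symm_apply, mem_sphere_zero_iff_norm.1 hx]
  norm_num

/-- the unit sphere of `K` is a sphere -/
noncomputable def hX₀ : Metric.sphere (0 : EuclideanSpace ℝ (Fin (d + 1))) 1 ≃ₜ S1 q where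
  toFun x := ⟨H.φ.symm x.1, H.q_of_mem_sphere x.2⟩
  invFun x := ⟨H.φ x.1, H.mem_sphere x.2⟩
  left_inv x := Subtype.ext (H.φ.apply_symm_apply x.1)
  right_inv x := Subtype.ext (H.φ.symm_apply_apply x.1)
  continuous_toFun := (H.φ.symm.continuous.comp continuous_subtype_val).subtype_mk _
  continuous_invFun := (H.φ.continuous.comp continuous_subtype_val).subtype_mk _

/-- the unit sphere of `K` is a sphere -/
noncomputable def hX : Sph d ≃ₜ S1 q :=
  (onePointEquivSphereOfFinrankEq (ι := Fin (d + 1)) (V := Fin d → ℝ) (by simp)).trans H.hX₀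

/-! ### the parametrization of the sphere of `K × K` -/

theorem jn_mem (x y : S1 q) (s : unitInterval) :
    q (Real.sqrt (1 - (s : ℝ) ^ 2) • x.1) + q ((s : ℝ) • y.1) = 1 := by
  rw [H.q_smul, H.q_smul, x.2, y.2, Real.sq_sqrt (one_sub_sq_nonneg s)]
  ring

/-- the point `(√(1 - s²) x, s y)` -/
noncomputable def jn (x y : S1 q) (s : unitInterval) : S2 q :=
  ⟨(Real.sqrt (1 - (s : ℝ) ^ 2) • x.1, (s : ℝ) • y.1), H.jn_mem x y s⟩

theorem hopf_jn (x y : S1 q) (s : unitInterval) : hopfK q m (H.jn x y s) =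
    if (s : ℝ) = 0 then ∞ else (((Real.sqrt (1 - (s : ℝ) ^ 2) / s) • m x.1 y.1 : K) : OnePoint K)
    := by
  have hy : y.1 ≠ 0 := by
    intro h
    have h1 := y.2
    rw [h, H.q_zero] at h1
    exact zero_ne_one h1
  by_cases hs : (s : ℝ) = 0
  · rw [if_pos hs]
    refine if_pos ?_
    show (s : ℝ) • y.1 = 0
    rw [hs, zero_smul]
  · rw [if_neg hs]
    refine (if_neg ?_).trans ?_
    · show ¬ (s : ℝ) • y.1 = 0
      rw [smul_eq_zero]
      exact fun h => h.elim hs hy
    · congr 1
      show (q ((s : ℝ) • y.1))⁻¹ • m (Real.sqrt (1 - (s : ℝ) ^ 2) • x.1) ((s : ℝ) • y.1) = _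
      rw [H.q_smul, y.2, mul_one, H.smul_m, H.m_smul, smul_smul, smul_smul]
      congr 1
      field_simp

theorem jn_cont [ContinuousSMul ℝ K] :
    Continuous fun z : (S1 q × S1 q) × unitInterval => H.jn z.1.1 z.1.2 z.2 := by
  refine Continuous.subtype_mk (Continuous.prodMk ?_ ?_) _
  · refine Continuous.smul ?_ (continuous_subtype_val.comp (continuous_fst.comp continuous_fst))
    exact Real.continuous_sqrt.comp
      (continuous_const.sub ((continuous_subtype_val.comp continuous_snd).pow 2))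
  · exact (continuous_subtype_val.comp continuous_snd).smul
      (continuous_subtype_val.comp (continuous_snd.comp continuous_fst))

/-! ### the cover of the target -/

variable (L : K ≃L[ℝ] (Fin (d + 1) → ℝ))

theorem radial_mem {v : Fin (d + 1) → ℝ} (h : L.symm v ≠ 0) :
    q ((Real.sqrt (q (L.symm v)))⁻¹ • L.symm v) = 1 := by
  rw [H.q_smul, inv_pow, Real.sq_sqrt (H.q_nonneg _)]
  exact inv_mul_cancel₀ fun h' => h (H.q_eq_zero.1 h')

/-- the radial retraction -/
noncomputable def rho (y : Sph (d + 1)) : Sph d :=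
  y.elim ∞ fun v => open Classical in if h : L.symm v = 0 then ∞ else
    H.hX.symm ⟨(Real.sqrt (q (L.symm v)))⁻¹ • L.symm v, H.radial_mem L h⟩

theorem rho_coe {v : Fin (d + 1) → ℝ} (h : L.symm v ≠ 0) : H.rho L (v : OnePoint _) =
    H.hX.symm ⟨(Real.sqrt (q (L.symm v)))⁻¹ • L.symm v, H.radial_mem L h⟩ := dif_neg h

theorem rho_contOn [ContinuousSMul ℝ K] : ContinuousOn (H.rho L)
    ({(∞ : Sph (d + 1))}ᶜ ∩ {((0 : Fin (d + 1) → ℝ) : Sph (d + 1))}ᶜ) := by
  rintro y ⟨h1, h2⟩
  obtain ⟨v, rfl⟩ := OnePoint.ne_infty_iff_exists.1 h1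
  refine ContinuousAt.continuousWithinAt (OnePoint.continuousAt_coe.2 ?_)
  have hv : v ≠ 0 := fun h => h2 (by rw [h]; rfl)
  have h3 : ∀ w : Fin (d + 1) → ℝ, w ≠ 0 → L.symm w ≠ 0 := fun w hw h =>
    hw ((map_eq_zero_iff L.symm L.symm.injective).1 h)
  refine ContinuousOn.continuousAt (s := {0}ᶜ) ?_ (isOpen_compl_singleton.mem_nhds hv)
  rw [continuousOn_iff_continuous_domRestrict]
  have h4 : Set.domRestrict {(0 : Fin (d + 1) → ℝ)}ᶜ (H.rho L ∘ OnePoint.some) = fun w =>
      H.hX.symm ⟨(Real.sqrt (q (L.symm w.1)))⁻¹ • L.symm w.1, H.radial_mem L (h3 w.1 w.2)⟩ := by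
    funext w
    exact H.rho_coe L (h3 w.1 w.2)
  rw [h4]
  refine H.hX.symm.continuous.comp (Continuous.subtype_mk ?_ _)
  have hc : Continuous fun w : ({(0 : Fin (d + 1) → ℝ)}ᶜ : Set _) => L.symm w.1 :=
    L.symm.continuous.comp continuous_subtype_val
  refine Continuous.smul (Continuous.inv₀ (Real.continuous_sqrt.comp (H.q_cont.comp hc)) ?_) hc
  intro w h5
  exact h3 w.1 w.2 (H.q_eq_zero.1 ((Real.sqrt_eq_zero (H.q_nonneg _)).1 h5))

/-! ### the Hopf construction -/

/-- the multiplication of the sphere -/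
def mul (x y : S1 q) : S1 q := ⟨m x.1 y.1, by rw [H.q_m, x.2, y.2, one_mul]⟩

/-- the unit of the sphere -/
def one : S1 q := ⟨H.o, H.q_o⟩

theorem mul_one' (x : S1 q) : H.mul x H.one = x := Subtype.ext (H.m_o x.1)

theorem one_mul' (x : S1 q) : H.mul H.one (H.mul H.one x) = x := Subtype.ext (H.o_m x.1)

theorem mul_cont : Continuous fun z : S1 q × S1 q => H.mul z.1 z.2 :=
  Continuous.subtype_mk (H.cont.comp
    ((continuous_subtype_val.comp continuous_fst).prodMk
      (continuous_subtype_val.comp continuous_snd))) _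

variable (F : C(Sph (d + (d + 1)), Sph (d + 1)))
  (e : Sph (d + (d + 1)) ≃ₜ S2 q)
  (hF : ∀ z, F z = (hopfK q m (e z)).map L)

include hF

theorem F_jn (x y : S1 q) (s : unitInterval) : F (e.symm (H.jn x y s)) =
    if (s : ℝ) = 0 then ∞ else
      ((L ((Real.sqrt (1 - (s : ℝ) ^ 2) / s) • (H.mul x y).1) : Fin (d + 1) → ℝ) :
        OnePoint (Fin (d + 1) → ℝ)) := by
  rw [hF, Homeomorph.apply_symm_apply, H.hopf_jn]
  split_ifs <;> rfl

/-- the data of the Hopf construction -/
noncomputable def data [ContinuousSMul ℝ K] : HopfData (Sph d) (Sph (d + (d + 1))) (Sph (d + 1)) where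
  μ := ⟨fun z => H.hX.symm (H.mul (H.hX z.1) (H.hX z.2)),
    H.hX.symm.continuous.comp (H.mul_cont.comp
      ((H.hX.continuous.comp continuous_fst).prodMk (H.hX.continuous.comp continuous_snd)))⟩
  o := H.hX.symm H.one
  ι := ⟨fun x => H.hX.symm (H.mul H.one (H.hX x)),
    H.hX.symm.continuous.comp (H.mul_cont.comp (continuous_const.prodMk H.hX.continuous))⟩
  μ_o x := by
    show H.hX.symm (H.mul (H.hX x) (H.hX (H.hX.symm H.one))) = x
    rw [Homeomorph.apply_symm_apply, mul_one', Homeomorph.symm_apply_apply]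
  o_μ x := by
    show H.hX.symm (H.mul (H.hX (H.hX.symm H.one)) (H.hX x)) = H.hX.symm (H.mul H.one (H.hX x))
    rw [Homeomorph.apply_symm_apply]
  ι_ι x := by
    show H.hX.symm (H.mul H.one (H.hX (H.hX.symm (H.mul H.one (H.hX x))))) = x
    rw [Homeomorph.apply_symm_apply, one_mul', Homeomorph.symm_apply_apply]
  π := ⟨fun z => e.symm (H.jn (H.hX z.1.1) (H.hX z.1.2) z.2),
    e.symm.continuous.comp (H.jn_cont.comp
      (((H.hX.continuous.comp (continuous_fst.comp continuous_fst)).prodMk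
        (H.hX.continuous.comp (continuous_snd.comp continuous_fst))).prodMk continuous_snd))⟩
  j₁ := ⟨fun x => e.symm (H.jn (H.hX x) H.one 0),
    e.symm.continuous.comp (H.jn_cont.comp
      ((H.hX.continuous.prodMk continuous_const).prodMk continuous_const))⟩
  j₂ := ⟨fun y => e.symm (H.jn H.one (H.hX y) 1),
    e.symm.continuous.comp (H.jn_cont.comp
      ((continuous_const.prodMk H.hX.continuous).prodMk continuous_const))⟩
  π_zero x y := by
    refine congrArg e.symm (Subtype.ext (Prod.ext rfl ?_))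
    show (0 : ℝ) • _ = (0 : ℝ) • _
    rw [zero_smul, zero_smul]
  π_one x y := by
    refine congrArg e.symm (Subtype.ext (Prod.ext ?_ rfl))
    show Real.sqrt (1 - ((1 : unitInterval) : ℝ) ^ 2) • _ =
      Real.sqrt (1 - ((1 : unitInterval) : ℝ) ^ 2) • _
    have h1 : Real.sqrt (1 - ((1 : unitInterval) : ℝ) ^ 2) = 0 := by
      rw [Set.Icc.coe_one]; norm_num
    rw [h1, zero_smul, zero_smul]
  Q := ⟨fun z => F (e.symm (H.jn (H.hX z.1) H.one z.2)),
    F.continuous.comp (e.symm.continuous.comp (H.jn_cont.comp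
      (((H.hX.continuous.comp continuous_fst).prodMk continuous_const).prodMk continuous_snd)))⟩
  Q_zero x x' := by
    show F (e.symm (H.jn (H.hX x) H.one 0)) = F (e.symm (H.jn (H.hX x') H.one 0))
    have h0 : ((0 : unitInterval) : ℝ) = 0 := rfl
    rw [H.F_jn L F e hF, H.F_jn L F e hF, if_pos h0, if_pos h0]
  Q_one x x' := by
    show F (e.symm (H.jn (H.hX x) H.one 1)) = F (e.symm (H.jn (H.hX x') H.one 1))
    have h1 : Real.sqrt (1 - ((1 : unitInterval) : ℝ) ^ 2) = 0 := by
      rw [Set.Icc.coe_one]; norm_num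
    rw [H.F_jn L F e hF, H.F_jn L F e hF, h1, zero_div, zero_smul, zero_smul]
  F := F
  F_π x y s := by
    show F (e.symm (H.jn (H.hX x) (H.hX y) s)) = F (e.symm (H.jn (H.hX (H.hX.symm
      (H.mul (H.hX x) (H.hX y)))) H.one s))
    rw [H.F_jn L F e hF, H.F_jn L F e hF, Homeomorph.apply_symm_apply, mul_one']

/-- **The Hopf map has Hopf invariant one.** -/
theorem sqNe [ContinuousSMul ℝ K] (hd : Odd d) : SqNe F (d + 1) 0 := by
  have hd0 : 0 < d := hd.pos
  obtain ⟨y, hy, hdy, hy1⟩ := SphCc.exists_fund d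
  have hyne : ¬ ∃ a : Cc (sing (Sph d)), Cc.d a = y := by
    rintro ⟨a, ha⟩
    have h1 := (SphCc.coh_iff hd0 hy hdy).1 (coh_of_d ha.symm)
    rw [hy1] at h1
    exact one_ne_zero h1
  have hQ : ∀ x s, (H.data L F e hF).Q (x, s) = if (s : ℝ) = 0 then ∞ else
      ((L ((Real.sqrt (1 - (s : ℝ) ^ 2) / s) • (H.hX x).1) : Fin (d + 1) → ℝ) :
        OnePoint (Fin (d + 1) → ℝ)) := by
    intro x s
    have h1 := H.F_jn L F e hF (H.hX x) H.one s
    rw [H.mul_one'] at h1
    exact h1
  have hx0 : ∀ x, (H.hX x).1 ≠ 0 := by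
    intro x h
    have h1 := (H.hX x).2
    rw [h, H.q_zero] at h1
    exact zero_ne_one h1
  have hs0 : ∀ s : unitInterval, (s : ℝ) = 0 ↔ s = 0 := fun s =>
    ⟨fun h => Subtype.ext h, fun h => by rw [h]; rfl⟩
  obtain ⟨b, hb, hdb, hb0, a, ha⟩ := suspB (U := {(∞ : Sph (d + 1))}ᶜ)
    (V := {((0 : Fin (d + 1) → ℝ) : Sph (d + 1))}ᶜ) isOpen_compl_singleton
    isOpen_compl_singleton (fun z => by
      by_cases hz : z = ∞
      · right
        rw [hz]
        exact (OnePoint.coe_ne_infty _).symm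
      · exact Or.inl hz) (H.data L F e hF).Q
    (fun x s => by
      rw [hQ, Set.mem_compl_iff, Set.mem_singleton_iff, not_iff_not]
      constructor
      · intro h
        by_contra hs
        rw [if_neg (fun h' => hs ((hs0 s).1 h'))] at h
        exact OnePoint.coe_ne_infty _ h
      · intro h
        rw [if_pos ((hs0 s).2 h)])
    (fun x s => by
      rw [hQ, Set.mem_compl_iff, Set.mem_singleton_iff, not_iff_not]
      constructor
      · intro h
        by_cases hs : (s : ℝ) = 0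
        · rw [if_pos hs] at h
          exact absurd h.symm (OnePoint.coe_ne_infty _)
        · rw [if_neg hs] at h
          have h2 := OnePoint.coe_injective h
          rw [map_eq_zero_iff L L.injective, smul_eq_zero] at h2
          have h3 := h2.resolve_right (hx0 x)
          rw [div_eq_zero_iff] at h3
          have h4 := h3.resolve_right hs
          rw [Real.sqrt_eq_zero (one_sub_sq_nonneg s)] at h4
          apply Subtype.ext
          show (s : ℝ) = 1
          have h5 := s.2.1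
          nlinarith
      · rintro rfl
        have h1 : Real.sqrt (1 - ((1 : unitInterval) : ℝ) ^ 2) = 0 := by
          rw [Set.Icc.coe_one]; norm_num
        rw [if_neg (by rw [Set.Icc.coe_one]; norm_num), h1, zero_div, zero_smul, map_zero])
    (H.rho L) (H.rho_contOn L)
    (fun x s hxs => by
      have hs : (s : ℝ) ≠ 0 := by
        intro hs
        refine hxs.1 ?_
        rw [hQ, if_pos hs]
        rfl
      have hs1 : 0 < (s : ℝ) := lt_of_le_of_ne s.2.1 (Ne.symm hs)
      have h2 := hxs.2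
      rw [hQ, if_neg hs] at h2 ⊢
      obtain ⟨c, hc⟩ : ∃ c, c = Real.sqrt (1 - (s : ℝ) ^ 2) / s := ⟨_, rfl⟩
      have hc0 : 0 ≤ c := hc ▸ div_nonneg (Real.sqrt_nonneg _) hs1.le
      rw [← hc] at h2 ⊢
      have hc1 : c ≠ 0 := by
        rintro rfl
        refine h2 ?_
        rw [zero_smul, map_zero]
        rfl
      have hne : L.symm (L (c • (H.hX x).1)) ≠ 0 := by
        rw [ContinuousLinearEquiv.symm_apply_apply]
        exact smul_ne_zero hc1 (hx0 x)
      rw [H.rho_coe L hne]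
      rw [Homeomorph.symm_apply_eq]
      apply Subtype.ext
      show (Real.sqrt (q (L.symm (L (c • (H.hX x).1)))))⁻¹ • L.symm (L (c • (H.hX x).1)) =
        (H.hX x).1
      rw [ContinuousLinearEquiv.symm_apply_apply, H.q_smul, (H.hX x).2, mul_one,
        Real.sqrt_sq hc0, smul_smul, inv_mul_cancel₀ hc1, one_smul]) hy hdy
  refine HopfData.sqNe (H.data L F e hF) hd (fun k hk hkd => SphCc.van hk hkd)
    (SphCc.van (Nat.succ_pos d) (by omega)) (SphCc.van (by omega) (by omega))
    (SphCc.van (by omega) (by omega)) ?_ hb hdb hb0 ?_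
  · intro u v hu hv hdu hdv hune hvne
    refine cross_ne hd0 hdu hune hv hdv ?_ hvne
    intro p σ hσ
    have h1 : Cc.pull (singMap (ContinuousMap.const (Sph d) (∞ : Sph d))) v = 0 :=
      pull_const_odd hd hv _ (fun _ _ => rfl) (by rw [hdv]; rfl)
    have h2 := congrFun (congrFun h1 p) σ
    have h3 : (singMap (ContinuousMap.const (Sph d) (∞ : Sph d))).app σ = σ :=
      ContinuousMap.ext fun t => (hσ t).symm
    have h4 : v p ((singMap (ContinuousMap.const (Sph d) (∞ : Sph d))).app σ) = 0 := h2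
    rwa [h3] at h4
  · rintro ⟨a', ha'⟩
    refine hyne ⟨a' + a, ?_⟩
    rw [d_add, ha', ha, add_assoc]
    have h6 := (Cc.cupC (sing (Sph d))).two (Cc.d a)
    exact (congrArg (y + ·) h6).trans (add_zero y)

/-- **The Hopf map has Hopf invariant one**, for Steenrod's functional square. -/
theorem hopfOne [ContinuousSMul ℝ K] (hd : Odd d) : TJ.HopfOne F :=
  (sqNe_iff_hopfOne (i := 0) hd.pos F rfl rfl).1 (H.sqNe L F e hF hd)

end HK

end

end Vale.Agent.P263.K
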